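import Vale.Agent.P193.Full.Twisted.Concrete
import Mathlib.GroupTheory.Commutator.Basic
import Mathlib.GroupTheory.Subgroup.Simple
import Mathlib.GroupTheory.QuotientGroup.Defs

/-! The twisted group is simple (P193). -/

open Classical
open scoped commutatorElement

noncomputable section

namespace Vale.Agent.P193.Twisted

variable {Y : Type} [DecidableEq Y] {L : Subgroup (Equiv.Perm Y)}

namespace Tree

/-- A tree reading the first bits of the coordinate `a`. -/
def bitTree (a : Co Y) : ℕ → Tree Y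
  | 0 => node a leaf leaf
  | n + 1 => node a (bitTree a n) (bitTree a n)

theorem bitTree_bit (a : Co Y) : ∀ (n : ℕ) (i : (bitTree a n).Leaf) (x y : Pt Y),
    (bitTree a n).point i x a n = (bitTree a n).point i y a n
  | 0, Sum.inl _, x, y => (cons_self a false x).trans (cons_self a false y).symm
  | 0, Sum.inr _, x, y => (cons_self a true x).trans (cons_self a true y).symm
  | n + 1, Sum.inl i, x, y => by
    simp only [bitTree, point, cons_apply, Function.update_self]
    exact bitTree_bit a n i x y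
  | n + 1, Sum.inr i, x, y => by
    simp only [bitTree, point, cons_apply, Function.update_self]
    exact bitTree_bit a n i x y

theorem Refines.bit {T : Tree Y} {a : Co Y} {n : ℕ} (h : Refines T (bitTree a n)) (i : T.Leaf)
    (x y : Pt Y) : T.point i x a n = T.point i y a n := by
  obtain ⟨j, hj⟩ := h i
  obtain ⟨z, hz⟩ := hj x
  obtain ⟨w, hw⟩ := hj y
  rw [hz, hw]
  exact bitTree_bit a n j z w

end Tree

/-- Moves nothing outside the set. -/
def Moves (S : Set (Pt Y)) (g : Equiv.Perm (Pt Y)) : Prop := ∀ x, x ∉ S → g x = x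

theorem Moves.inv {S : Set (Pt Y)} {g : Equiv.Perm (Pt Y)} (h : Moves S g) : Moves S g⁻¹ :=
  fun x hx => Equiv.Perm.inv_eq_iff_eq.2 (h x hx).symm

theorem Moves.stay {S : Set (Pt Y)} {g : Equiv.Perm (Pt Y)} (h : Moves S g) {x : Pt Y}
    (hx : x ∈ S) : g x ∈ S := by
  by_contra e
  exact e ((g.injective (h _ e)).symm ▸ hx)

theorem Moves.commute {S T : Set (Pt Y)} {g h : Equiv.Perm (Pt Y)} (hd : Disjoint S T)
    (hg : Moves S g) (hh : Moves T h) : Commute g h := by
  ext1 x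
  rw [Equiv.Perm.mul_apply, Equiv.Perm.mul_apply]
  by_cases hx : x ∈ S
  · rw [hh x (Set.disjoint_left.1 hd hx), hh _ (Set.disjoint_left.1 hd (hg.stay hx))]
  · by_cases hx' : x ∈ T
    · rw [hg _ (Set.disjoint_right.1 hd (hh.stay hx')), hg x hx]
    · rw [hh x hx', hg x hx, hh x hx']

theorem Moves.conj {S : Set (Pt Y)} {g a : Equiv.Perm (Pt Y)} (ha : Moves S a) :
    Moves (g '' S) (g * a * g⁻¹) := fun x hx => by
  have : g⁻¹ x ∉ S := fun e => hx ⟨_, e, g.apply_symm_apply x⟩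
  rw [Equiv.Perm.mul_apply, Equiv.Perm.mul_apply, ha _ this]
  exact g.apply_symm_apply x

/-- A nontrivial element moves a brick off itself. -/
theorem exists_moved_brick {g : Equiv.Perm (Pt Y)} (hg : g ∈ tableGroup L) (h1 : g ≠ 1) :
    ∃ (T : Tree Y) (i : T.Leaf),
      Disjoint (g '' Set.range (T.point i)) (Set.range (T.point i)) := by
  obtain ⟨x, hx⟩ : ∃ x, g x ≠ x := by
    by_contra h
    push Not at h
    exact h1 (Equiv.ext h)
  obtain ⟨a, ha⟩ := Function.ne_iff.1 hx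
  obtain ⟨n, hn⟩ := Function.ne_iff.1 ha
  obtain ⟨t, ht⟩ := hg
  obtain ⟨S, hS₁, hS₂⟩ := Tree.exists_common t.inv.dom (Tree.bitTree a n)
  obtain ⟨s, hs, es⟩ := t.inv.exists_dom hS₁
  subst hs
  have eg : s.inv.perm = g := by rw [s.inv_perm, es, t.inv_perm, inv_inv, ht]
  obtain ⟨T, hT₁, hT₂⟩ := Tree.exists_common s.inv.dom (Tree.bitTree a n)
  refine ⟨T, (T.locate x).1, Set.disjoint_left.2 ?_⟩
  rintro _ ⟨_, ⟨y, rfl⟩, rfl⟩ ⟨z, hz⟩
  obtain ⟨j, hj⟩ := hT₁ (T.locate x).1
  obtain ⟨w, hw⟩ := hj y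
  obtain ⟨w₀, hw₀⟩ := hj (T.locate x).2
  rw [T.point_locate] at hw₀
  have e1 : g (T.point (T.locate x).1 y) =
      s.inv.cod.point (s.inv.σ j) (twist (s.inv.lab j : Equiv.Perm Y) w) := by
    rw [← eg, hw, Table.perm_point]
  have e2 : g x = s.inv.cod.point (s.inv.σ j) (twist (s.inv.lab j : Equiv.Perm Y) w₀) := by
    rw [← eg, hw₀, Table.perm_point]
  have h3 : g (T.point (T.locate x).1 y) a n = g x a n := by
    rw [e1, e2]
    exact hS₂.bit (T := s.inv.cod) _ _ _
  have h4 : T.point (T.locate x).1 z a n = x a n :=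
    (hT₂.bit _ z (T.locate x).2).trans (congrFun (congrFun (T.point_locate x) a) n)
  rw [hz, h3] at h4
  exact hn h4

theorem lp_tableGroup {g : Equiv.Perm (Pt Y)} (hg : g ∈ tableGroup L) :
    lp (hPt (Y := Y)) [false] g ∈ tableGroup L := by
  obtain ⟨t, rfl⟩ := hg
  refine ⟨⟨Tree.node none t.dom Tree.leaf, Tree.node none t.cod Tree.leaf,
    Equiv.sumCongr t.σ (Equiv.refl _), Sum.elim t.lab fun _ => 1⟩, Table.perm_mk ?_⟩
  rintro (i | i) x
  · show lp hPt [false] t.perm (cons none false (t.dom.point i x)) =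
      cons none false (t.cod.point (t.σ i) (twist (t.lab i : Equiv.Perm Y) x))
    rw [← t.perm_point]
    have := lp_pre (H := hPt (Y := Y)) [false] t.perm (t.dom.point i x)
    rw [hPt_pre, hPt_pre] at this
    exact this
  · show lp hPt [false] t.perm (cons none true x) = cons none true (twist (1 : Equiv.Perm Y) x)
    rw [map_one]
    refine lp_out (H := hPt (Y := Y)) [false] _ ?_
    rintro ⟨z, hz⟩
    rw [hPt_pre] at hz
    exact pre_ne (inc_halves []).symm x z hz

theorem code_mem_table {V : Subgroup (Equiv.Perm (Pt Y))} (hV : IsCodeGroup V) :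
    V ≤ tableGroup L := by
  intro v hv
  obtain ⟨A, B, σ, h⟩ := (hV v).1 hv
  refine ⟨⟨A.shape, B.shape, A.shapeEquiv.symm.trans (σ.trans B.shapeEquiv), fun _ => 1⟩,
    Table.perm_mk fun k x => ?_⟩
  obtain ⟨i, rfl⟩ := A.shapeEquiv.surjective k
  simp only [Equiv.trans_apply, Equiv.symm_apply_apply, OneMemClass.coe_one, map_one,
    Equiv.Perm.one_apply, Tree.shape_point]
  exact h i x

theorem lamHom_mem (l : L) : lamHom L l ∈ tableGroup L := by
  refine lp_tableGroup ⟨⟨Tree.leaf, Tree.leaf, Equiv.refl _, fun _ => l⟩, Table.perm_mk ?_⟩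
  intro i x
  rfl

/-- A normal subgroup containing a nontrivial element contains the commutators of a half. -/
theorem commutator_mem (N : Subgroup (tableGroup L)) [N.Normal] {g : tableGroup L} (hg : g ∈ N)
    (h1 : g ≠ 1) {a b : tableGroup L} (ha : Moves (Set.range (pre [false])) (a : Equiv.Perm (Pt Y)))
    (hb : Moves (Set.range (pre [false])) (b : Equiv.Perm (Pt Y))) : ⁅a, b⁆ ∈ N := by
  obtain ⟨T, i, hd⟩ := exists_moved_brick g.2 fun e => h1 (Subtype.ext e)
  have hc : 2 ≤ Fintype.card T.Leaf := by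
    by_contra hlt
    have := T.card_pos
    match T, i, hd, hlt with
    | Tree.leaf, i, hd, _ =>
      exact Set.disjoint_left.1 hd ⟨_, ⟨fun _ _ => false, rfl⟩, rfl⟩ ⟨_, rfl⟩
    | Tree.node a l r, _, _, hlt =>
      rw [Tree.card_node] at hlt
      have := l.card_pos
      have := r.card_pos
      omega
  let A : Tree Y := Tree.node none Tree.leaf (Tree.comb (Fintype.card T.Leaf - 2))
  obtain ⟨σ₀⟩ : Nonempty (A.Leaf ≃ T.Leaf) :=
    ⟨Fintype.equivOfCardEq (by rw [Tree.card_node, Tree.card_leaf, Tree.comb_card]; omega)⟩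
  let σ := σ₀.trans (Equiv.swap (σ₀ (Sum.inl ())) i)
  let t : Table L := ⟨A, T, σ, fun _ => 1⟩
  let k : tableGroup L := ⟨t.perm, t.perm_mem⟩
  have hk : ∀ x, (k : Equiv.Perm (Pt Y)) (pre [false] x) = T.point i x := by
    intro x
    refine (t.perm_point (Sum.inl ()) x).trans ?_
    show T.point (σ (Sum.inl ())) (twist (1 : Equiv.Perm Y) x) = _
    rw [map_one, show σ (Sum.inl ()) = i from Equiv.swap_apply_left _ _]
    rfl
  have himg : (k : Equiv.Perm (Pt Y)) '' Set.range (pre [false]) = Set.range (T.point i) := by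
    ext y
    constructor
    · rintro ⟨_, ⟨x, rfl⟩, rfl⟩; exact ⟨x, (hk x).symm⟩
    · rintro ⟨x, rfl⟩; exact ⟨_, ⟨x, rfl⟩, hk x⟩
  have main : ∀ c d : tableGroup L, Moves (Set.range (T.point i)) (c : Equiv.Perm (Pt Y)) →
      Moves (Set.range (T.point i)) (d : Equiv.Perm (Pt Y)) → ⁅c⁻¹, d⁆ ∈ N := by
    intro c d hc hd'
    have hgc : Moves ((g : Equiv.Perm (Pt Y)) '' Set.range (T.point i))
        ((g : Equiv.Perm (Pt Y)) * c * (g : Equiv.Perm (Pt Y))⁻¹) := hc.conj
    have e1 : Commute (g * c * g⁻¹) d := Subtype.ext (hgc.commute hd hd').eq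
    have e2 : Commute (g * c * g⁻¹) c := Subtype.ext (hgc.commute hd hc).eq
    have hn : ⁅g, c⁆ ∈ N := by
      rw [commutatorElement_def, show g * c * g⁻¹ * c⁻¹ = g * (c * g⁻¹ * c⁻¹) by group]
      exact N.mul_mem hg (Subgroup.Normal.conj_mem ‹_› _ (N.inv_mem hg) c)
    have hn2 : ⁅⁅g, c⁆, d⁆ ∈ N := by
      rw [commutatorElement_def (g₁ := ⁅g, c⁆), show ⁅g, c⁆ * d * ⁅g, c⁆⁻¹ * d⁻¹ =
        ⁅g, c⁆ * (d * ⁅g, c⁆⁻¹ * d⁻¹) by group]
      exact N.mul_mem hn (Subgroup.Normal.conj_mem ‹_› _ (N.inv_mem hn) d)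
    have eq : ⁅⁅g, c⁆, d⁆ = ⁅c⁻¹, d⁆ := by
      have h' : Commute (g * c * g⁻¹) (c⁻¹ * d * c) := (e2.inv_right.mul_right e1).mul_right e2
      calc ⁅⁅g, c⁆, d⁆ = (g * c * g⁻¹) * (c⁻¹ * d * c) * (g * c * g⁻¹)⁻¹ * d⁻¹ := by
            simp only [commutatorElement_def]; group
        _ = (c⁻¹ * d * c) * d⁻¹ := by rw [h'.eq, mul_inv_cancel_right]
        _ = _ := by simp only [commutatorElement_def]; group
    exact eq ▸ hn2
  have := main (k * a * k⁻¹)⁻¹ (k * b * k⁻¹)
    (by rw [← himg]; exact (ha.conj (g := (k : Equiv.Perm (Pt Y)))).inv)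
    (by rw [← himg]; exact hb.conj)
  rw [inv_inv, show ⁅k * a * k⁻¹, k * b * k⁻¹⁆ = k * ⁅a, b⁆ * k⁻¹ by
    simp only [commutatorElement_def]; group] at this
  have := Subgroup.Normal.conj_mem ‹_› _ this k⁻¹
  rwa [show k⁻¹ * (k * ⁅a, b⁆ * k⁻¹) * k⁻¹⁻¹ = ⁅a, b⁆ by group] at this

theorem lp_moves (g : Equiv.Perm (Pt Y)) :
    Moves (Set.range (pre [false])) (lp (hPt (Y := Y)) [false] g) := fun x hx =>
  lp_out (H := hPt (Y := Y)) [false] g fun ⟨z, hz⟩ => hx ⟨z, by rw [hz, hPt_pre]⟩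

/-- A nontrivial normal subgroup contains the whole group on the extra coordinate. -/
theorem vg_mem (N : Subgroup (tableGroup L)) [N.Normal] {g : tableGroup L} (hg : g ∈ N)
    (h1 : g ≠ 1) {v : Equiv.Perm (Pt Y)} (hv : v ∈ VG) :
    (⟨v, code_mem_table vg_code hv⟩ : tableGroup L) ∈ N := by
  have : Nonempty (Pt Y) := ⟨fun _ _ => false⟩
  let e : ↥(VG (Y := Y)) →* tableGroup L := Subgroup.inclusion (code_mem_table vg_code)
  let lp₀ : ↥(VG (Y := Y)) →* tableGroup L :=
    ((lp (hPt (Y := Y)) [false]).comp VG.subtype).codRestrict _ fun w =>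
      lp_tableGroup (code_mem_table vg_code w.2)
  have h0 : ∀ w, lp₀ w ∈ N := by
    intro w
    have hle : commutator ↥(VG (Y := Y)) ≤ N.comap lp₀ := by
      rw [commutator_def, Subgroup.commutator_le]
      intro a _ b _
      rw [Subgroup.mem_comap, map_commutatorElement]
      exact commutator_mem N hg h1 (lp_moves _) (lp_moves _)
    exact hle ((swapGroup_schurPerfect (triv (Y := Y))).symm ▸ Subgroup.mem_top w)
  have hle : (VG (Y := Y)) ≤ (N.map (tableGroup L).subtype) := by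
    refine (VFP.swapGroup_le_deep triv_trivial 2).trans ((Subgroup.closure_le _).2 ?_)
    rintro _ ⟨u, w, h, hu, hw, rfl⟩
    rcases vg_code.exists_maps_pair (Y := Y) (u := u) (w := w) h with ⟨hl, -⟩ | ⟨k, hk, ku, kw⟩
    · omega
    have h01 : Apart [false, false] [false, true] := apart_bits [false]
    have hs : VFP.sw (triv (Y := Y)) h01 = lp hPt [false]
        (VFP.sw (triv (Y := Y)) (apart_heads (by decide : false ≠ true) [] [])) :=
      (VFP.lp_sw (triv (Y := Y)) [false] _ h01).symm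
    have hconj : k * VFP.sw (triv (Y := Y)) h01 * k⁻¹ = VFP.sw (triv (Y := Y)) h :=
      VFP.sw_conj h01 (fun x => by rw [hPt_pre, hPt_pre]; exact ku x)
        (fun x => by rw [hPt_pre, hPt_pre]; exact kw x) h
    let K : tableGroup L := ⟨k, code_mem_table vg_code hk⟩
    refine ⟨K * lp₀ ⟨_, VFP.sw_mem (apart_heads (by decide : false ≠ true) [] [])⟩ * K⁻¹,
      Subgroup.Normal.conj_mem ‹_› _ (h0 _) K, ?_⟩
    show k * lp hPt [false] (VFP.sw _ _) * k⁻¹ = _
    rw [← hs, hconj]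
  obtain ⟨n, hn, e⟩ := hle hv
  rwa [show (⟨v, code_mem_table vg_code hv⟩ : tableGroup L) = n from Subtype.ext e.symm]

/-- Generated by the pieces, the twisted group is simple. -/
theorem isSimpleGroup (p : Param Y) (hp : p.V = VG)
    (hgen : tableGroup p.L ≤ Subgroup.closure
      ((p.V : Set (Equiv.Perm (Pt Y))) ∪ Set.range (lamHom p.L) ∪ {(bTab p.L p.y₀).perm})) :
    IsSimpleGroup ↥(tableGroup p.L) := by
  have : Nontrivial ↥(tableGroup p.L) := by
    refine ⟨⟨⟨_, (bTab p.L p.y₀).perm_mem⟩, 1, fun e => ?_⟩⟩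
    have h : (bTab p.L p.y₀).perm = 1 := congrArg Subtype.val e
    have h2 : ∀ x : Pt Y, pre [false] (cons (some p.y₀) true x) = pre [false, true] x := fun x => by
      rw [← bTab_false (L := p.L), h]; rfl
    have h3 := congrFun (congrFun (h2 fun _ _ => false) (some p.y₀)) 0
    simp [cons_apply, seqEquiv] at h3
  refine ⟨fun N hN => ?_⟩
  by_cases h : N = ⊥
  · exact Or.inl h
  refine Or.inr (eq_top_iff.2 fun x _ => ?_)
  obtain ⟨g, hg, hg1⟩ := (Subgroup.bot_or_exists_ne_one N).resolve_left h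
  let q : ↥(tableGroup p.L) →* ↥(tableGroup p.L) ⧸ N := QuotientGroup.mk' N
  have hq : ∀ {y}, q y = 1 ↔ y ∈ N := fun {y} => QuotientGroup.eq_one_iff y
  have hV : ∀ v : p.V, q ⟨v, code_mem_table p.code v.2⟩ = 1 := fun v =>
    hq.2 (vg_mem N hg hg1 (v := (v : Equiv.Perm (Pt Y))) (hp ▸ v.2))
  have hpl : ∀ (u : List Bool) (y : tableGroup p.L) (hy : (base₀ p).place u y ∈ tableGroup p.L),
      q ⟨_, hy⟩ = q y := by
    intro u y hy
    rw [show (⟨_, hy⟩ : tableGroup p.L) = ⟨_, code_mem_table p.code (p.kTo u).2⟩ * y *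
      ⟨_, code_mem_table p.code (p.kTo u).2⟩⁻¹ from Subtype.ext rfl, map_mul, map_mul, map_inv,
      hV (p.kTo u), one_mul, inv_one, mul_one]
  have pm : ∀ (u : List Bool) (y : tableGroup p.L),
      (base₀ p).place u (y : Equiv.Perm (Pt Y)) ∈ tableGroup p.L := fun u y =>
    mul_mem (mul_mem (code_mem_table p.code (p.kTo u).2) y.2)
      (inv_mem (code_mem_table p.code (p.kTo u).2))
  have hl : ∀ l, q ⟨lamHom p.L l, lamHom_mem l⟩ = 1 := by
    intro l
    set y : tableGroup p.L := ⟨lamHom p.L l, lamHom_mem l⟩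
    have e : y = ⟨_, pm [false, false] y⟩ * ⟨_, pm [false, true] y⟩ :=
      Subtype.ext ((rels₀ p).r_splitL l)
    have e' := congrArg q e
    rw [map_mul, hpl _ y, hpl _ y] at e'
    exact mul_eq_left.1 e'.symm
  have hb : q ⟨_, (bTab p.L p.y₀).perm_mem⟩ = 1 := by
    set y : tableGroup p.L := ⟨_, (bTab p.L p.y₀).perm_mem⟩
    have e : y = ⟨_, pm [false, false] y⟩ * ⟨_, pm [false, true] y⟩ *
        ⟨_, code_mem_table p.code p.flip₀.2⟩ := Subtype.ext (rels₀ p).r_splitb
    have e' := congrArg q e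
    rw [map_mul, map_mul, hpl _ y, hpl _ y, hV p.flip₀, mul_one] at e'
    exact mul_eq_left.1 e'.symm
  have hle : Subgroup.closure
      ((p.V : Set (Equiv.Perm (Pt Y))) ∪ Set.range (lamHom p.L) ∪ {(bTab p.L p.y₀).perm}) ≤
      N.map (tableGroup p.L).subtype := by
    rw [Subgroup.closure_le]
    rintro y ((hy | ⟨l, rfl⟩) | rfl)
    · exact ⟨_, hq.1 (hV ⟨y, hy⟩), rfl⟩
    · exact ⟨_, hq.1 (hl l), rfl⟩
    · exact ⟨_, hq.1 hb, rfl⟩
  obtain ⟨n, hn, e⟩ := hle (hgen x.2)
  exact Subtype.ext e ▸ hn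

end Vale.Agent.P193.Twisted
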