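import Vale.Agent.P193.Full.Twisted.Pres
import Vale.Agent.P193.Full.Twisted.Simple
import Vale.Agent.P193.Full.Glue

/-! The endgame: a finitely presented group acting transitively on ordered pairs with a finitely
generated point stabiliser embeds in a finitely presented simple group (P193). -/

open Classical

noncomputable section

namespace Vale.Agent.P193.Twisted

variable {Y : Type} [DecidableEq Y]

/-- Finitely many elements generate the elements of `V` fixing the half `[false]`. -/
theorem vg_fix_gens (p : Param Y) (hp : p.V = VG) :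
    ∃ S : Finset ↥p.V, (∀ v ∈ S, Maps (v : Equiv.Perm (Pt Y)) [false] [false]) ∧
      ∀ v : p.V, Maps (v : Equiv.Perm (Pt Y)) [false] [false] →
        v ∈ Subgroup.closure (S : Set ↥p.V) := by
  obtain ⟨V, code, L, y₀, y₁, ne, pair⟩ := p
  subst hp
  have : Nonempty (Pt Y) := ⟨fun _ _ => false⟩
  obtain ⟨n, g, hg⟩ := exists_gens (vg_fp (Y := Y))
  let i₁ : ↥(VG (Y := Y)) →* ↥(VG (Y := Y)) :=
    ((lp (hPt (Y := Y)) [true]).comp VG.subtype).codRestrict _ fun w =>
      tableGroup_le (reg_graph_lp (swapGroup_le w.2) [true])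
  refine ⟨Finset.univ.image fun i => i₁ (g i), ?_, ?_⟩
  · intro v hv
    obtain ⟨i, -, rfl⟩ := Finset.mem_image.1 hv
    intro x
    refine lp_out (H := hPt (Y := Y)) [true] _ ?_
    rintro ⟨z, hz⟩
    rw [hPt_pre] at hz
    exact pre_ne (inc_halves []) x z hz
  · intro v hv
    let s : Equiv.Perm (Pt Y) :=
      swapPerm (exch (M := triv (Y := Y)) (incomp_bits (H := hPt (Y := Y))))
    have hs : s ∈ VG := Subgroup.subset_closure ⟨_, rfl⟩
    have hfix : ∀ x, (s⁻¹ * (v : Equiv.Perm (Pt Y)) * s) ((hPt (Y := Y)).pre [true] x) =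
        (hPt (Y := Y)).pre [true] x := by
      intro x
      have hst : s ((hPt (Y := Y)).pre [true] x) = (hPt (Y := Y)).pre [false] x :=
        swap_bwd _ (piece_mem ⟨rfl, trivial⟩)
      rw [Equiv.Perm.mul_apply, Equiv.Perm.mul_apply, hst]
      conv_lhs => arg 2; rw [hPt_pre, hv x, ← hPt_pre, ← hst]
      exact s.symm_apply_apply _
    obtain ⟨w, hw, e⟩ := VFP.exists_lp triv_trivial (mul_mem (mul_mem (inv_mem hs) v.2) hs) hfix
    have hv' : v = i₁ ⟨w, hw⟩ := by
      refine Subtype.ext ?_
      show (v : Equiv.Perm (Pt Y)) = lp hPt [true] w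
      have := lp_exch (M := triv (Y := Y)) (incomp_bits (H := hPt (Y := Y))) w
      rw [← mul_inv_eq_iff_eq_mul] at this
      rw [← this, ← e]
      show (v : Equiv.Perm (Pt Y)) = s * (s⁻¹ * (v : Equiv.Perm (Pt Y)) * s) * s⁻¹
      group
    rw [hv', Finset.coe_image, Finset.coe_univ, Set.image_univ,
      show Set.range (fun i => i₁ (g i)) = i₁ '' Set.range g from (Set.range_comp i₁ g),
      ← MonoidHom.map_closure, hg]
    exact ⟨_, Subgroup.mem_top _, rfl⟩

theorem range_evK (p : Param Y) :
    (evK p).range ≤ Subgroup.closure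
      ((p.V : Set (Equiv.Perm (Pt Y))) ∪ Set.range (lamHom p.L) ∪ {(bTab p.L p.y₀).perm}) := by
  rintro _ ⟨k, rfl⟩
  induction k using Monoid.Coprod.induction_on with
  | inl k =>
    induction k using Monoid.Coprod.induction_on with
    | inl v => exact Subgroup.subset_closure (Or.inl (Or.inl (evK_V p v ▸ v.2)))
    | inr l => exact Subgroup.subset_closure (Or.inl (Or.inr ⟨l, (evK_L p l).symm⟩))
    | mul a b ha hb => rw [map_mul, map_mul]; exact mul_mem ha hb
  | inr k =>
    induction k using FreeGroup.induction_on with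
    | C1 => rw [map_one, map_one]; exact one_mem _
    | of u => exact Subgroup.subset_closure (Or.inr (evK_b p))
    | inv_of u hu => rw [map_inv, map_inv]; exact inv_mem hu
    | mul a b ha hb => rw [map_mul, map_mul]; exact mul_mem ha hb
  | mul a b ha hb => rw [map_mul]; exact mul_mem ha hb

end Vale.Agent.P193.Twisted

namespace Vale.Agent.P193

open Twisted in
/-- A finitely presented group of permutations, transitive on ordered pairs of distinct points
and with a finitely generated point stabiliser, lies in a finitely presented simple group. -/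
theorem exists_simple_fp : Endgame := by
  intro Y L _ _ hL hpair ⟨y₀, hS⟩
  obtain ⟨y₁, hne⟩ := exists_ne y₀
  let p : Param Y :=
    { V := VG
      code := vg_code
      L := L
      y₀ := y₀
      y₁ := y₁
      ne := hne.symm
      pair := fun y z h => hpair y₀ y₁ y z hne.symm h }
  obtain ⟨hfp, hrange⟩ := exists_equiv (p := p) vg_fp hL hS (vg_fix_gens p rfl)
  refine ⟨↥(Twisted.tableGroup L), inferInstance,
    isSimpleGroup p rfl fun g hg => range_evK p (hrange g hg), hfp,
    (lamHom L).codRestrict _ lamHom_mem, ?_⟩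
  intro l k e
  have e' : lamHom L l = lamHom L k := congrArg Subtype.val e
  refine Subtype.ext (twist_injective (Equiv.ext fun x => ?_))
  have h := congrArg (fun g : Equiv.Perm (Pt Y) => g (pre [false] x)) e'
  simp only [lamHom_false] at h
  exact pre_inj _ h

end Vale.Agent.P193
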