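import Vale.Agent.P193.Full.Twisted.Words
import Mathlib.GroupTheory.Subgroup.Centralizer
import Mathlib.Algebra.Group.Subgroup.Map
import Mathlib.Tactic.Group
import Mathlib.Algebra.Group.Commute.Hom

/-! The calculus of placed elements in a group satisfying the finitely many relations of the
twisted group (P193). -/

namespace Vale.Agent.P193.Twisted

variable {Y : Type} [DecidableEq Y]

/-- Bundled parameters. -/
structure Param (Y : Type) [DecidableEq Y] where
  V : Subgroup (Equiv.Perm (Pt Y))
  code : IsCodeGroup V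
  L : Subgroup (Equiv.Perm Y)
  y₀ : Y
  y₁ : Y
  ne : y₀ ≠ y₁
  pair : ∀ y z, y ≠ z → ∃ l ∈ L, l y₀ = y ∧ l y₁ = z

namespace Param

variable (p : Param Y)

theorem exists_trans (y : Y) : ∃ l : p.L, (l : Equiv.Perm Y) p.y₀ = y := by
  by_cases h : y = p.y₀
  · exact ⟨1, h.symm⟩
  · obtain ⟨l, hl, h', -⟩ := p.pair y p.y₀ h
    exact ⟨⟨l, hl⟩, h'⟩

/-- A code map sending `[false]` to the given word. -/
noncomputable def kTo (u : List Bool) : p.V :=
  if h : u = [] then 1
  else ⟨(p.code.exists_maps h).choose, (p.code.exists_maps h).choose_spec.1⟩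

theorem kTo_maps {u : List Bool} (h : u ≠ []) :
    Maps (p.kTo u : Equiv.Perm (Pt Y)) [false] u := by
  rw [kTo, dif_neg h]
  exact (p.code.exists_maps h).choose_spec.2

/-- Four quarters of a half, the middle two exchanged. -/
theorem exists_flip₀ : ∃ v : p.V, Maps (v : Equiv.Perm (Pt Y)) [true] [true] ∧
    ∀ c d, Maps (v : Equiv.Perm (Pt Y)) [false, c, d] [false, d, c] := by
  open Tree in
  let A : Tree Y := node none (node none (node none leaf leaf) (node none leaf leaf)) leaf
  let σ : A.Leaf ≃ A.Leaf := Equiv.sumCongr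
    (swapLeaf (a := none) (b := none) Tree.leaf Tree.leaf Tree.leaf Tree.leaf) (Equiv.refl _)
  refine ⟨⟨_, p.code.code_mem A A σ⟩, A.code_maps A σ (Sum.inr ()), ?_⟩
  intro c d
  cases c <;> cases d
  · exact A.code_maps A σ (Sum.inl (Sum.inl (Sum.inl ())))
  · exact A.code_maps A σ (Sum.inl (Sum.inl (Sum.inr ())))
  · exact A.code_maps A σ (Sum.inl (Sum.inr (Sum.inl ())))
  · exact A.code_maps A σ (Sum.inl (Sum.inr (Sum.inr ())))

/-- The four quarters, the middle two exchanged. -/
theorem exists_flipR : ∃ v : p.V, ∀ c d, Maps (v : Equiv.Perm (Pt Y)) [c, d] [d, c] := by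
  open Tree in
  let A : Tree Y := node none (node none leaf leaf) (node none leaf leaf)
  let σ : A.Leaf ≃ A.Leaf := swapLeaf (a := none) (b := none) Tree.leaf Tree.leaf Tree.leaf Tree.leaf
  refine ⟨⟨_, p.code.code_mem A A σ⟩, ?_⟩
  intro c d
  cases c <;> cases d
  · exact A.code_maps A σ (Sum.inl (Sum.inl ()))
  · exact A.code_maps A σ (Sum.inl (Sum.inr ()))
  · exact A.code_maps A σ (Sum.inr (Sum.inl ()))
  · exact A.code_maps A σ (Sum.inr (Sum.inr ()))

noncomputable def flip₀ : p.V := p.exists_flip₀.choose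
noncomputable def flipR : p.V := p.exists_flipR.choose

theorem flip₀_true : Maps (p.flip₀ : Equiv.Perm (Pt Y)) [true] [true] :=
  p.exists_flip₀.choose_spec.1

theorem flip₀_false (c d : Bool) :
    Maps (p.flip₀ : Equiv.Perm (Pt Y)) [false, c, d] [false, d, c] :=
  p.exists_flip₀.choose_spec.2 c d

theorem flipR_maps (c d : Bool) : Maps (p.flipR : Equiv.Perm (Pt Y)) [c, d] [d, c] :=
  p.exists_flipR.choose_spec c d

/-- The exchange of the middle two of the four quarters of `u`. -/
noncomputable def flipAt (u : List Bool) : p.V :=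
  if u = [] then p.flipR else p.kTo u * p.flip₀ * (p.kTo u)⁻¹

theorem flipAt_maps (u : List Bool) (c d : Bool) :
    Maps (p.flipAt u : Equiv.Perm (Pt Y)) (u ++ [c, d]) (u ++ [d, c]) := by
  by_cases h : u = []
  · subst h; simpa [flipAt] using p.flipR_maps c d
  · have hk := p.kTo_maps h
    rw [flipAt, if_neg h]
    simp only [Subgroup.coe_mul, Subgroup.coe_inv]
    exact ((hk.extend [c, d]).inv.mul (p.flip₀_false c d)).mul (hk.extend [d, c])

theorem flipAt_fix {u w : List Bool} (h : Inc u w) :
    Maps (p.flipAt u : Equiv.Perm (Pt Y)) w w := by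
  have hu : u ≠ [] := fun e => h.1 (e ▸ List.nil_prefix)
  intro x
  rw [flipAt, if_neg hu]
  simp only [Subgroup.coe_mul, Subgroup.coe_inv, Equiv.Perm.mul_apply]
  set z := (p.kTo u : Equiv.Perm (Pt Y))⁻¹ (pre w x) with hz
  have hz' : (p.kTo u : Equiv.Perm (Pt Y)) z = pre w x :=
    ((Equiv.Perm.inv_eq_iff_eq).1 hz.symm).symm
  cases hb : (split none z).1 with
  | false =>
    have : z = pre [false] (split none z).2 := by
      rw [pre_cons, pre_nil, ← hb, cons_split]
    rw [this, p.kTo_maps hu] at hz'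
    exact absurd hz' (pre_ne h _ _)
  | true =>
    have : z = pre [true] (split none z).2 := by
      rw [pre_cons, pre_nil, ← hb, cons_split]
    rw [this, p.flip₀_true, ← this, hz']

end Param

/-- The generators with their evaluation, and the fixing relations. -/
structure Base (p : Param Y) (P : Type) [Group P] where
  ιV : p.V →* P
  ιL : p.L →* P
  b : P
  ev : P →* Equiv.Perm (Pt Y)
  ev_V : ∀ v : p.V, ev (ιV v) = (v : Equiv.Perm (Pt Y))
  ev_L : ∀ (l : p.L) x, ev (ιL l) (pre [false] x) = pre [false] (twist (l : Equiv.Perm Y) x)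
  ev_L' : ∀ l : p.L, Maps (ev (ιL l)) [true] [true]
  ev_b : ∀ c x, ev b (pre [false, c] x) = pre [false] (cons (some p.y₀) c x)
  ev_b' : Maps (ev b) [true] [true]
  r_fixL : ∀ v : p.V, Maps (v : Equiv.Perm (Pt Y)) [false] [false] →
    ∀ l, Commute (ιV v) (ιL l)
  r_fixb : ∀ v : p.V, Maps (v : Equiv.Perm (Pt Y)) [false] [false] → Commute (ιV v) b
  r_stab : ∀ l : p.L, (l : Equiv.Perm Y) p.y₀ = p.y₀ → Commute (ιL l) b

namespace Base

variable {p : Param Y} {P : Type} [Group P] (B : Base p P)

/-- The subgroup of the elements that are placed. -/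
def Q : Subgroup P := Subgroup.closure (Set.range B.ιL ∪ {B.b})

theorem ιL_mem (l : p.L) : B.ιL l ∈ B.Q := Subgroup.subset_closure (Or.inl ⟨l, rfl⟩)

theorem b_mem : B.b ∈ B.Q := Subgroup.subset_closure (Or.inr rfl)

/-- Conjugate to the prefix `u`. -/
noncomputable def place (u : List Bool) : P →* P :=
  (MulAut.conj (B.ιV (p.kTo u))).toMonoidHom

theorem place_apply (u : List Bool) (q : P) :
    B.place u q = B.ιV (p.kTo u) * q * (B.ιV (p.kTo u))⁻¹ := rfl

theorem fix_commute {v : p.V} (hv : Maps (v : Equiv.Perm (Pt Y)) [false] [false]) {q : P}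
    (hq : q ∈ B.Q) : Commute (B.ιV v) q := by
  refine (Subgroup.mem_centralizer_singleton_iff.1
    (Subgroup.closure_le (K := Subgroup.centralizer {B.ιV v}) |>.2 ?_ hq)).symm
  rintro x (⟨l, rfl⟩ | rfl)
  · exact Subgroup.mem_centralizer_singleton_iff.2 (B.r_fixL v hv l).eq.symm
  · exact Subgroup.mem_centralizer_singleton_iff.2 (B.r_fixb v hv).eq.symm

theorem place_eq {v : p.V} {u : List Bool} (hu : u ≠ [])
    (hv : Maps (v : Equiv.Perm (Pt Y)) [false] u) {q : P} (hq : q ∈ B.Q) :
    B.ιV v * q * (B.ιV v)⁻¹ = B.place u q := by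
  have h : Maps (((p.kTo u)⁻¹ * v : p.V) : Equiv.Perm (Pt Y)) [false] [false] :=
    hv.mul (p.kTo_maps hu).inv
  have hc := (B.fix_commute h hq).eq
  rw [map_mul, map_inv] at hc
  rw [place_apply]
  calc B.ιV v * q * (B.ιV v)⁻¹
      = B.ιV (p.kTo u) * ((B.ιV (p.kTo u))⁻¹ * B.ιV v * q) * (B.ιV v)⁻¹ := by group
    _ = _ := by rw [hc]; group

theorem place_false {q : P} (hq : q ∈ B.Q) : B.place [false] q = q := by
  rw [← B.place_eq (v := 1) (List.cons_ne_nil _ _) (Maps.one _) hq]
  simp

/-- A code map sending the prefix `u` to `w` moves what is placed at `u`. -/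
theorem place_move {v : p.V} {u w : List Bool} (hu : u ≠ []) (hw : w ≠ [])
    (hv : Maps (v : Equiv.Perm (Pt Y)) u w) {q : P} (hq : q ∈ B.Q) :
    B.ιV v * B.place u q * (B.ιV v)⁻¹ = B.place w q := by
  rw [← B.place_eq (v := v * p.kTo u) hw ((p.kTo_maps hu).mul hv) hq, place_apply, map_mul]
  group

end Base

/-- All relations. -/
structure Rels (p : Param Y) (P : Type) [Group P] extends Base p P where
  r_top : ∀ q ∈ Set.range ιL ∪ {b}, ∀ q' ∈ Set.range ιL ∪ {b},
    Commute q (toBase.place [true] q')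
  r_sub : ∀ q ∈ Set.range ιL ∪ {b}, ∀ q' ∈ Set.range ιL ∪ {b},
    Commute (toBase.place [false, false] q) (toBase.place [false, true] q')
  r_splitL : ∀ l, ιL l = toBase.place [false, false] (ιL l) * toBase.place [false, true] (ιL l)
  r_splitb : b = toBase.place [false, false] b * toBase.place [false, true] b * ιV p.flip₀
  r_cube : ∀ l : p.L, (l : Equiv.Perm Y) p.y₀ = p.y₁ →
    b * toBase.place [false, false] (ιL l * b * (ιL l)⁻¹) *
        toBase.place [false, true] (ιL l * b * (ιL l)⁻¹) =
      ιL l * b * (ιL l)⁻¹ * toBase.place [false, false] b * toBase.place [false, true] b *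
        ιV p.flip₀

theorem V_ext_quarters {g h : Equiv.Perm (Pt Y)}
    (e : ∀ c₁ c₂ c₃ x, g (pre [c₁, c₂, c₃] x) = h (pre [c₁, c₂, c₃] x)) : g = h := by
  ext1 x
  have : x = pre [(split none x).1, (split none (split none x).2).1,
      (split none (split none (split none x).2).2).1]
      (split none (split none (split none x).2).2).2 := by
    simp only [pre_cons, pre_nil, cons_split]
  rw [this, e]

namespace Rels

variable {p : Param Y} {P : Type} [Group P] (R : Rels p P)

theorem gen_commute {a b : P →* P}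
    (h : ∀ q ∈ Set.range R.ιL ∪ {R.b}, ∀ q' ∈ Set.range R.ιL ∪ {R.b}, Commute (a q) (b q'))
    {q q' : P} (hq : q ∈ R.toBase.Q) (hq' : q' ∈ R.toBase.Q) : Commute (a q) (b q') := by
  induction hq, hq' using Subgroup.closure_induction₂ with
  | mem x y hx hy => exact h x hx y hy
  | one_left y hy => rw [map_one]; exact Commute.one_left _
  | one_right x hx => rw [map_one]; exact Commute.one_right _
  | mul_left x y z _ _ _ h₁ h₂ => rw [map_mul]; exact h₁.mul_left h₂
  | mul_right x y z _ _ _ h₁ h₂ => rw [map_mul]; exact h₁.mul_right h₂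
  | inv_left x y _ _ h₁ => rw [map_inv]; exact h₁.inv_left
  | inv_right x y _ _ h₁ => rw [map_inv]; exact h₁.inv_right

theorem commute_place {u w : List Bool} (h : Inc u w) {q q' : P} (hq : q ∈ R.toBase.Q)
    (hq' : q' ∈ R.toBase.Q) : Commute (R.toBase.place u q) (R.toBase.place w q') := by
  have top : ∀ {x y : P}, x ∈ R.toBase.Q → y ∈ R.toBase.Q →
      Commute (R.toBase.place [false] x) (R.toBase.place [true] y) := fun {x y} hx hy => by
    rw [R.toBase.place_false hx]
    exact R.gen_commute (a := MonoidHom.id P) R.r_top hx hy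
  rcases p.code.exists_maps_pair h with ⟨h1, h2⟩ | ⟨g, hg, hgu, hgw⟩
  · obtain ⟨c, rfl⟩ := List.length_eq_one_iff.1 h1
    obtain ⟨d, rfl⟩ := List.length_eq_one_iff.1 h2
    rcases inc_cons h with hcd | ⟨-, h'⟩
    · cases c <;> cases d <;> simp at hcd
      · exact top hq hq'
      · exact (top hq' hq).symm
    · exact absurd List.nil_prefix h'.1
  · have hu : u ≠ [] := fun e => h.1 (e ▸ List.nil_prefix)
    have hw : w ≠ [] := fun e => h.2 (e ▸ List.nil_prefix)
    rw [← R.toBase.place_move (v := ⟨g, hg⟩) (List.cons_ne_nil _ _) hu hgu hq,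
      ← R.toBase.place_move (v := ⟨g, hg⟩) (List.cons_ne_nil _ _) hw hgw hq']
    exact Commute.map (R.gen_commute R.r_sub hq hq') (MulAut.conj (R.ιV ⟨g, hg⟩)).toMonoidHom

theorem place_place {u : List Bool} (hu : u ≠ []) (s : List Bool) {q : P} (hq : q ∈ R.toBase.Q) :
    R.toBase.place u (R.toBase.place (false :: s) q) = R.toBase.place (u ++ s) q := by
  rw [R.toBase.place_apply u]
  exact R.toBase.place_move (List.cons_ne_nil _ _) (by simp [hu])
    ((p.kTo_maps hu).extend s) hq

theorem place_flip₀ {u : List Bool} (hu : u ≠ []) :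
    R.toBase.place u (R.ιV p.flip₀) = R.ιV (p.flipAt u) := by
  rw [R.toBase.place_apply, Param.flipAt, if_neg hu, map_mul, map_mul, map_inv]

/-- The element of `L` acting on the prefix `u`. -/
noncomputable def Lam (u : List Bool) (l : p.L) : P :=
  if u = [] then R.toBase.place [false] (R.ιL l) * R.toBase.place [true] (R.ιL l) else R.toBase.place u (R.ιL l)

theorem lam_ne {u : List Bool} (hu : u ≠ []) (l : p.L) : R.Lam u l = R.toBase.place u (R.ιL l) := if_neg hu

theorem lam_one (u : List Bool) : R.Lam u 1 = 1 := by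
  simp [Lam]

theorem lam_mul (u : List Bool) (l k : p.L) : R.Lam u (l * k) = R.Lam u l * R.Lam u k := by
  by_cases hu : u = []
  · subst hu
    simp only [Lam, if_true, map_mul]
    exact (R.commute_place (inc_halves []) (R.toBase.ιL_mem k)
      (R.toBase.ιL_mem l)).mul_mul_mul_comm _ _
  · simp [Lam, hu]

theorem lam_split (u : List Bool) (l : p.L) :
    R.Lam u l = R.Lam (u ++ [false]) l * R.Lam (u ++ [true]) l := by
  by_cases hu : u = []
  · subst hu; simp [Lam]
  · rw [R.lam_ne hu, R.lam_ne (by simp), R.lam_ne (by simp)]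
    conv_lhs => rw [R.r_splitL l]
    rw [map_mul, R.place_place hu _ (R.toBase.ιL_mem l), R.place_place hu _ (R.toBase.ιL_mem l)]

/-- A chosen element carrying `y₀` to `y`. -/
noncomputable def lTo (y : Y) : p.L := (p.exists_trans y).choose

/-- The split of the coordinate `y` on the prefix `[false]`. -/
noncomputable def bY (y : Y) : P := R.ιL (lTo y) * R.b * (R.ιL (lTo y))⁻¹

theorem bY_mem (y : Y) : R.bY y ∈ R.toBase.Q :=
  R.toBase.Q.mul_mem (R.toBase.Q.mul_mem (R.toBase.ιL_mem _) R.toBase.b_mem)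
    (R.toBase.Q.inv_mem (R.toBase.ιL_mem _))

theorem bY_eq (l : p.L) : R.ιL l * R.b * (R.ιL l)⁻¹ = R.bY ((l : Equiv.Perm Y) p.y₀) := by
  set m := lTo (p := p) ((l : Equiv.Perm Y) p.y₀)
  have hm : (m : Equiv.Perm Y) p.y₀ = (l : Equiv.Perm Y) p.y₀ := (p.exists_trans _).choose_spec
  have h : ((m⁻¹ * l : p.L) : Equiv.Perm Y) p.y₀ = p.y₀ := by
    simp [Subgroup.coe_mul, ← hm]
  have hc := (R.r_stab _ h).eq
  rw [map_mul, map_inv] at hc
  show _ = R.ιL m * R.b * (R.ιL m)⁻¹
  calc R.ιL l * R.b * (R.ιL l)⁻¹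
      = R.ιL m * ((R.ιL m)⁻¹ * R.ιL l * R.b) * (R.ιL l)⁻¹ := by group
    _ = _ := by rw [hc]; group

theorem bY_y₀ : R.bY p.y₀ = R.b := by
  simpa using (R.bY_eq 1).symm

theorem conj_bY (l : p.L) (y : Y) :
    R.ιL l * R.bY y * (R.ιL l)⁻¹ = R.bY ((l : Equiv.Perm Y) y) := by
  have h := R.bY_eq (l * lTo y)
  rw [Subgroup.coe_mul, Equiv.Perm.mul_apply,
    show (lTo (p := p) y : Equiv.Perm Y) p.y₀ = y from (p.exists_trans y).choose_spec, map_mul] at h
  rw [← h, bY]
  group

/-- The split of a coordinate on the prefix `[false]`; trivial on the extra coordinate. -/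
noncomputable def bC : Co Y → P
  | none => 1
  | some y => R.bY y

theorem bC_mem : ∀ a, R.bC a ∈ R.toBase.Q
  | none => R.toBase.Q.one_mem
  | some y => R.bY_mem y

theorem lam_bC (l : p.L) (a : Co Y) :
    R.ιL l * R.bC a = R.bC (lft (l : Equiv.Perm Y) a) * R.ιL l := by
  cases a with
  | none => simp [bC]
  | some y => rw [lft_some, bC, bC, ← R.conj_bY l y]; group

/-- The split of the coordinate `a` on the prefix `u`. -/
noncomputable def Bat (u : List Bool) (a : Co Y) : P :=
  if u = [] then
    match a with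
    | none => 1
    | some y => R.toBase.place [false] (R.bY y) * R.toBase.place [true] (R.bY y) * R.ιV p.flipR
  else R.toBase.place u (R.bC a)

theorem bat_ne {u : List Bool} (hu : u ≠ []) (a : Co Y) : R.Bat u a = R.toBase.place u (R.bC a) := if_neg hu

theorem bat_none (u : List Bool) : R.Bat u none = 1 := by
  by_cases hu : u = []
  · simp [Bat, hu]
  · simp [Bat, hu, bC]

theorem flip₀_commute_lam (l : p.L) : Commute (R.ιV p.flip₀) (R.ιL l) := by
  have h4 : R.ιL l = R.toBase.place [false, false, false] (R.ιL l) * R.toBase.place [false, false, true] (R.ιL l) *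
      (R.toBase.place [false, true, false] (R.ιL l) * R.toBase.place [false, true, true] (R.ιL l)) := by
    conv_lhs => rw [R.r_splitL l]
    have h : ∀ c, R.toBase.place [false, c] (R.ιL l) =
        R.toBase.place [false, c, false] (R.ιL l) * R.toBase.place [false, c, true] (R.ιL l) := fun c => by
      have := R.lam_split [false, c] l
      simpa [Lam] using this
    rw [← h, ← h]
  show R.ιV p.flip₀ * R.ιL l = R.ιL l * R.ιV p.flip₀
  rw [← mul_inv_eq_iff_eq_mul, ← MulAut.conj_apply]
  conv_lhs => rw [h4]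
  conv_rhs => rw [h4]
  have hm : ∀ c d, MulAut.conj (R.ιV p.flip₀) (R.toBase.place [false, c, d] (R.ιL l)) =
      R.toBase.place [false, d, c] (R.ιL l) := fun c d =>
    R.toBase.place_move (List.cons_ne_nil _ _) (List.cons_ne_nil _ _) (p.flip₀_false c d)
      (R.toBase.ιL_mem l)
  simp only [map_mul, hm]
  exact (R.commute_place (by constructor <;> simp [List.cons_prefix_cons]) (R.toBase.ιL_mem l)
    (R.toBase.ιL_mem l)).mul_mul_mul_comm _ _

theorem split₀ (y : Y) :
    R.bY y = R.toBase.place [false, false] (R.bY y) * R.toBase.place [false, true] (R.bY y) * R.ιV p.flip₀ := by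
  set l : p.L := lTo y
  have hl : ∀ c, R.toBase.place [false, c] (R.bY y) =
      R.toBase.place [false, c] (R.ιL l) * R.toBase.place [false, c] R.b * (R.toBase.place [false, c] (R.ιL l))⁻¹ := fun c => by
    rw [← map_inv, ← map_mul, ← map_mul]; rfl
  have hf := (R.flip₀_commute_lam l).inv_right.eq
  have c1 : Commute (R.toBase.place [false, true] (R.ιL l)) (R.toBase.place [false, false] R.b) :=
    R.commute_place (inc_halves [false]).symm (R.toBase.ιL_mem l) R.toBase.b_mem
  have c2 : Commute (R.toBase.place [false, true] (R.ιL l) * R.toBase.place [false, true] R.b *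
      (R.toBase.place [false, true] (R.ιL l))⁻¹) (R.toBase.place [false, false] (R.ιL l)) := by
    rw [← hl]
    exact R.commute_place (inc_halves [false]).symm (R.bY_mem y) (R.toBase.ιL_mem l)
  rw [hl, hl]
  calc R.bY y = R.ιL l * R.b * (R.ιL l)⁻¹ := rfl
    _ = R.toBase.place [false, false] (R.ιL l) * R.toBase.place [false, true] (R.ιL l) *
          (R.toBase.place [false, false] R.b * R.toBase.place [false, true] R.b) *
          (R.ιV p.flip₀ * (R.ιL l)⁻¹) := by
        conv_lhs => arg 1; arg 1; rw [R.r_splitL l]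
        conv_lhs => arg 1; arg 2; rw [R.r_splitb]
        group
    _ = R.toBase.place [false, false] (R.ιL l) * R.toBase.place [false, false] R.b *
          (R.toBase.place [false, true] (R.ιL l) * R.toBase.place [false, true] R.b) *
          ((R.ιL l)⁻¹ * R.ιV p.flip₀) := by rw [hf, c1.mul_mul_mul_comm]
    _ = R.toBase.place [false, false] (R.ιL l) * R.toBase.place [false, false] R.b *
          ((R.toBase.place [false, true] (R.ιL l) * R.toBase.place [false, true] R.b *
            (R.toBase.place [false, true] (R.ιL l))⁻¹) * (R.toBase.place [false, false] (R.ιL l))⁻¹) *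
          R.ιV p.flip₀ := by
        conv_lhs => arg 2; arg 1; rw [R.r_splitL l]
        group
    _ = _ := by rw [c2.inv_right.eq]; group

theorem bat_split (u : List Bool) (y : Y) :
    R.Bat u (some y) = R.Bat (u ++ [false]) (some y) * R.Bat (u ++ [true]) (some y) *
      R.ιV (p.flipAt u) := by
  by_cases hu : u = []
  · subst hu; simp [Bat, Param.flipAt, bC]
  · rw [R.bat_ne hu, R.bat_ne (by simp), R.bat_ne (by simp)]
    simp only [bC]
    conv_lhs => rw [R.split₀ y]
    rw [map_mul, map_mul, R.place_flip₀ hu, R.place_place hu _ (R.bY_mem y),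
      R.place_place hu _ (R.bY_mem y)]

theorem flipAt₀ : p.flipAt [false] = p.flip₀ := by
  refine Subtype.ext (V_ext_quarters fun c₁ c₂ c₃ x => ?_)
  cases c₁
  · exact (p.flipAt_maps [false] c₂ c₃ x).trans (p.flip₀_false c₂ c₃ x).symm
  · exact ((p.flipAt_fix (inc_halves [])).extend [c₂, c₃] x).trans
      (p.flip₀_true.extend [c₂, c₃] x).symm

theorem flip₀_sq : p.flip₀ * p.flip₀ = 1 := by
  refine Subtype.ext (V_ext_quarters fun c₁ c₂ c₃ x => ?_)
  rw [Subgroup.coe_mul, Equiv.Perm.mul_apply]
  cases c₁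
  · rw [p.flip₀_false c₂ c₃, p.flip₀_false c₃ c₂]; rfl
  · have e : (p.flip₀ : Equiv.Perm (Pt Y)) (pre [true, c₂, c₃] x) = pre [true, c₂, c₃] x :=
      p.flip₀_true.extend [c₂, c₃] x
    rw [e, e]; rfl

theorem cube₀ {a b : Co Y} (h : a ≠ b) :
    R.bC a * R.toBase.place [false, false] (R.bC b) * R.toBase.place [false, true] (R.bC b) =
      R.bC b * R.toBase.place [false, false] (R.bC a) * R.toBase.place [false, true] (R.bC a) * R.ιV p.flip₀ := by
  cases a with
  | none =>
    cases b with
    | none => exact absurd rfl h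
    | some z =>
      simp only [bC, map_one, one_mul, mul_one]
      conv_rhs => rw [R.split₀ z]
      rw [mul_assoc _ (R.ιV p.flip₀) _, ← map_mul, flip₀_sq, map_one, mul_one]
  | some y =>
    cases b with
    | none =>
      simp only [bC, map_one, one_mul, mul_one]
      exact R.split₀ y
    | some z =>
      obtain ⟨l, hl, h₀, h₁⟩ := p.pair y z fun e => h (congrArg _ e)
      obtain ⟨m, hm⟩ := p.exists_trans p.y₁
      have hr := R.r_cube m hm
      rw [R.bY_eq m, hm] at hr
      have hr' := congrArg (MulAut.conj (R.ιL ⟨l, hl⟩)) hr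
      have hb : MulAut.conj (R.ιL ⟨l, hl⟩) R.b = R.bY y := by
        rw [MulAut.conj_apply, R.bY_eq ⟨l, hl⟩]; exact congrArg R.bY h₀
      have hb₁ : MulAut.conj (R.ιL ⟨l, hl⟩) (R.bY p.y₁) = R.bY z := by
        rw [MulAut.conj_apply, R.conj_bY]; exact congrArg R.bY h₁
      have hF : MulAut.conj (R.ιL ⟨l, hl⟩) (R.ιV p.flip₀) = R.ιV p.flip₀ := by
        rw [MulAut.conj_apply, (R.flip₀_commute_lam _).eq.symm]; group
      have hp : ∀ c, ∀ q ∈ R.toBase.Q, MulAut.conj (R.ιL ⟨l, hl⟩) (R.toBase.place [false, c] q) =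
          R.toBase.place [false, c] (MulAut.conj (R.ιL ⟨l, hl⟩) q) := by
        intro c q hq
        simp only [MulAut.conj_apply, map_mul, map_inv]
        conv_lhs => rw [R.r_splitL ⟨l, hl⟩]
        cases c
        · have c1 : Commute (R.toBase.place [false, true] (R.ιL ⟨l, hl⟩)) (R.toBase.place [false, false] q) :=
            R.commute_place (inc_halves [false]).symm (R.toBase.ιL_mem _) hq
          rw [mul_assoc (R.toBase.place [false, false] _) (R.toBase.place [false, true] _), c1.eq]
          group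
        · have c1 : Commute (R.toBase.place [false, false] (R.ιL ⟨l, hl⟩))
              (R.toBase.place [false, true] (R.ιL ⟨l, hl⟩) * R.toBase.place [false, true] q *
                (R.toBase.place [false, true] (R.ιL ⟨l, hl⟩))⁻¹) := by
            rw [← map_inv, ← map_mul, ← map_mul]
            exact R.commute_place (inc_halves [false]) (R.toBase.ιL_mem _)
              (R.toBase.Q.mul_mem (R.toBase.Q.mul_mem (R.toBase.ιL_mem _) hq)
                (R.toBase.Q.inv_mem (R.toBase.ιL_mem _)))
          calc _ = R.toBase.place [false, false] (R.ιL ⟨l, hl⟩) * (R.toBase.place [false, true] (R.ιL ⟨l, hl⟩) *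
                R.toBase.place [false, true] q * (R.toBase.place [false, true] (R.ιL ⟨l, hl⟩))⁻¹) *
                (R.toBase.place [false, false] (R.ιL ⟨l, hl⟩))⁻¹ := by group
            _ = _ := by rw [c1.eq]; group
      simp only [map_mul] at hr'
      rw [hp _ _ (R.bY_mem _), hp _ _ (R.bY_mem _), hp _ _ R.toBase.b_mem,
        hp _ _ R.toBase.b_mem, hF, hb, hb₁] at hr'
      exact hr'

theorem bat_cube {a b : Co Y} (h : a ≠ b) {u : List Bool} (hu : u ≠ []) :
    R.Bat u a * R.Bat (u ++ [false]) b * R.Bat (u ++ [true]) b =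
      R.Bat u b * R.Bat (u ++ [false]) a * R.Bat (u ++ [true]) a * R.ιV (p.flipAt u) := by
  rw [R.bat_ne hu, R.bat_ne hu, R.bat_ne (by simp), R.bat_ne (by simp), R.bat_ne (by simp),
    R.bat_ne (by simp), ← R.place_place hu [false] (R.bC_mem b),
    ← R.place_place hu [true] (R.bC_mem b), ← R.place_place hu [false] (R.bC_mem a),
    ← R.place_place hu [true] (R.bC_mem a), ← R.place_flip₀ hu]
  simp only [← map_mul, R.cube₀ h]

end Rels

end Vale.Agent.P193.Twisted
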