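import Vale.Agent.P193.Full.Twisted.Words
import Vale.Agent.P193.Full.VFP.Presentation

/-! Thompson's group on the extra coordinate: it consists of the code maps and is finitely
presented (P193). -/

open Classical

noncomputable section

namespace Vale.Agent.P193.Twisted

variable {Y : Type} [DecidableEq Y]

/-- The halving by the extra coordinate. -/
def hPt : Halving (Pt Y) := ⟨(split none).symm⟩

theorem hPt_pre (u : List Bool) (x : Pt Y) : (hPt (Y := Y)).pre u x = pre u x := by
  induction u with
  | nil => rfl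
  | cons c u ih => rw [pre_cons, ← ih]; rfl

/-- Only the empty graph and the identity. -/
def triv : Coeff (hPt (Y := Y)) where
  mem m := m = ∅ ∨ m = gid Set.univ
  pb := by
    rintro m (rfl | rfl)
    · exact ⟨fun _ _ _ h => absurd h (Set.notMem_empty _),
        fun _ _ _ h => absurd h (Set.notMem_empty _)⟩
    · exact ⟨fun x y z h h' => h.1.symm.trans h'.1, fun x y z h h' => h.1.trans h'.1.symm⟩
  bit := by
    rintro m (rfl | rfl) c d x y
    · simp
    · constructor
      · intro h
        obtain ⟨e1, e2⟩ := Prod.mk.inj ((hPt (Y := Y)).cons.injective h.1)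
        exact ⟨e1, e2, trivial⟩
      · rintro ⟨rfl, h, -⟩
        obtain rfl : x = y := h
        exact ⟨rfl, trivial⟩
  one_mem := Or.inr rfl
  inv_mem := by
    rintro m (rfl | rfl)
    · exact Or.inl rfl
    · exact Or.inr (Set.ext fun ⟨x, y⟩ => ⟨fun e => ⟨e.1.symm, trivial⟩,
        fun e => ⟨e.1.symm, trivial⟩⟩)
  comp_mem := by
    rintro m n (rfl | rfl) (rfl | rfl)
    · exact Or.inl (Set.ext fun p => ⟨fun ⟨_, h, _⟩ => h, fun h => absurd h (Set.notMem_empty _)⟩)
    · exact Or.inl (Set.ext fun p => ⟨fun ⟨_, h, _⟩ => h, fun h => absurd h (Set.notMem_empty _)⟩)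
    · exact Or.inl (Set.ext fun p => ⟨fun ⟨_, _, h⟩ => h, fun h => absurd h (Set.notMem_empty _)⟩)
    · exact Or.inr (by rw [gcomp_gid, Set.inter_self])
  compl_mem := by
    rintro m (rfl | rfl)
    · exact Or.inr (congrArg gid (Set.eq_univ_of_forall fun x ⟨_, h⟩ => h))
    · exact Or.inl (Set.ext fun p => ⟨fun h => h.2 ⟨p.1, rfl, trivial⟩,
        fun h => absurd h (Set.notMem_empty _)⟩)
  union_mem := by
    rintro m n (rfl | rfl) (rfl | rfl) _ _
    · exact Or.inl (Set.union_self _)
    · exact Or.inr (Set.empty_union _)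
    · exact Or.inr (Set.union_empty _)
    · exact Or.inr (Set.union_self _)

/-- Thompson's group on the extra coordinate. -/
def VG : Subgroup (Equiv.Perm (Pt Y)) := swapGroup (triv (Y := Y))

theorem triv_trivial : VFP.Trivial (triv (Y := Y)) := fun _ h => h

theorem vg_fp : Group.IsFinitelyPresented ↥(VG (Y := Y)) :=
  VFP.isFinitelyPresented triv_trivial

namespace Tree

/-- The full tree of a given depth. -/
def full : ℕ → Tree Y
  | 0 => leaf
  | n + 1 => node none (full n) (full n)

omit [DecidableEq Y] in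
theorem full_addr : ∀ (n : ℕ) (i : (full n : Tree Y).Leaf), ((full n).addr i).length = n
  | 0, _ => rfl
  | n + 1, Sum.inl i => congrArg (· + 1) (full_addr n i)
  | n + 1, Sum.inr i => congrArg (· + 1) (full_addr n i)

theorem addr_unique (T : Tree Y) {i j : T.Leaf} {y z : Pt Y}
    (h : pre (T.addr i) y = pre (T.addr j) z) : i = j := by
  by_contra e
  exact pre_ne (T.addr_inc e) y z h

/-- A complete code is the set of addresses of a tree. -/
theorem exists_of_code : ∀ (n : ℕ) {ι : Type} (w : ι → List Bool), (∀ i, (w i).length ≤ n) →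
    (∀ x : Pt Y, ∃ i z, pre (w i) z = x) →
    (∀ i j (y z : Pt Y), pre (w i) y = pre (w j) z → i = j) →
    ∃ (T : Tree Y) (e : ι ≃ T.Leaf), ∀ i, T.addr (e i) = w i := by
  intro n
  induction n with
  | zero =>
    intro ι w hl hc hu
    obtain ⟨i₀, -⟩ := hc fun _ _ => false
    have h0 : ∀ i, w i = [] := fun i => List.length_eq_zero_iff.1 (Nat.le_zero.1 (hl i))
    exact ⟨leaf, ⟨fun _ => (), fun _ => i₀, fun i => hu i₀ i (fun _ _ => false) (fun _ _ => false)
      (by rw [h0, h0]), fun _ => rfl⟩, fun i => (h0 i).symm⟩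
  | succ n ih =>
    intro ι w hl hc hu
    by_cases h : ∃ i, w i = []
    · obtain ⟨i₀, hi⟩ := h
      have h1 : ∀ i, i₀ = i := fun i => hu i₀ i (pre (w i) fun _ _ => false) (fun _ _ => false)
        (by rw [hi]; rfl)
      exact ⟨leaf, ⟨fun _ => (), fun _ => i₀, h1, fun _ => rfl⟩, fun i => h1 i ▸ hi.symm⟩
    · push Not at h
      let hd : ι → Bool := fun i => (w i).head (h i)
      have hw : ∀ i, w i = hd i :: (w i).tail := fun i => (List.cons_head_tail (h i)).symm
      have sub : ∀ c, ∃ (T : Tree Y) (e : {i // hd i = c} ≃ T.Leaf),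
          ∀ i, T.addr (e i) = (w i.1).tail := by
        intro c
        refine ih (fun i : {i // hd i = c} => (w i.1).tail) (fun i => ?_) (fun x => ?_) ?_
        · have := hl i.1
          rw [List.length_tail]; omega
        · obtain ⟨i, z, e⟩ := hc (cons none c x)
          rw [hw i, pre_cons, cons_inj] at e
          exact ⟨⟨i, e.1⟩, z, e.2⟩
        · intro i j y z e
          refine Subtype.ext (hu i.1 j.1 y z ?_)
          rw [hw i.1, hw j.1, pre_cons, pre_cons, i.2, j.2, e]
      obtain ⟨T₀, e₀, h₀⟩ := sub false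
      obtain ⟨T₁, e₁, h₁⟩ := sub true
      refine ⟨node none T₀ T₁,
        ((Equiv.sumCompl fun i => hd i = false).symm.trans
          ((Equiv.sumCongr e₀ ((Equiv.subtypeEquivRight fun i => by simp).trans e₁)) :
            {i // hd i = false} ⊕ {i // ¬ hd i = false} ≃ (node none T₀ T₁).Leaf)), fun i => ?_⟩
      by_cases hb : hd i = false
      · erw [Equiv.trans_apply, Equiv.sumCompl_symm_apply_of_pos (p := fun i => hd i = false) hb]
        show false :: T₀.addr (e₀ ⟨i, hb⟩) = w i
        rw [h₀, hw i, hb]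
        rfl
      · erw [Equiv.trans_apply, Equiv.sumCompl_symm_apply_of_neg (p := fun i => hd i = false) hb]
        show true :: T₁.addr (e₁ _) = w i
        rw [h₁, hw i]
        simp only [Equiv.subtypeEquivRight_apply_coe, List.cons.injEq, and_true]
        simpa using hb

end Tree

theorem vg_code : IsCodeGroup (VG (Y := Y)) := by
  intro g
  constructor
  · intro hg
    have : Nonempty (Pt Y) := ⟨fun _ _ => false⟩
    obtain ⟨N, -, hN⟩ := VFP.exists_code triv_trivial hg 0
    let A : Tree Y := Tree.full N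
    choose w _ hw using fun i : A.Leaf => hN (A.addr i) (Tree.full_addr N i).ge
    have hm : ∀ i, Maps g (A.addr i) (w i) := fun i x => by
      have := hw i x
      rwa [hPt_pre, hPt_pre] at this
    obtain ⟨B, e, he⟩ := Tree.exists_of_code ((A.leaves.map fun i => (w i).length).sum) w
      (fun i => le_list_sum (List.mem_map_of_mem (A.mem_leaves i)))
      (fun x => by
        obtain ⟨i, z, hz⟩ := A.exists_addr (g⁻¹ x)
        exact ⟨i, z, by rw [← hm, hz]; exact g.apply_symm_apply x⟩)
      (fun i j y z h => A.addr_unique (g.injective (((hm i y).trans h).trans (hm j z).symm)))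
    exact ⟨A, B, e, fun i => by rw [he]; exact hm i⟩
  · rintro ⟨A, B, σ, h⟩
    refine mem_swapGroup_of_pieces (A.leaves.map fun i => (A.addr i, B.addr (σ i), gid Set.univ))
      ?_ ?_
    · intro t ht
      obtain ⟨i, -, rfl⟩ := List.mem_map.1 ht
      exact Or.inr rfl
    · intro x y
      obtain ⟨i, z, rfl⟩ := A.exists_addr x
      rw [h i z]
      constructor
      · rintro rfl
        exact ⟨_, List.mem_map.2 ⟨i, A.mem_leaves i, rfl⟩, by
          rw [← hPt_pre, ← hPt_pre]; exact piece_mem ⟨rfl, trivial⟩⟩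
      · rintro ⟨t, ht, hp⟩
        obtain ⟨j, -, rfl⟩ := List.mem_map.1 ht
        obtain ⟨a, c, ⟨hac, -⟩, e⟩ := mem_piece.1 hp
        simp only [Prod.mk.injEq, hPt_pre] at e hac
        subst hac
        obtain rfl := A.addr_unique e.1
        rw [pre_inj _ e.1, e.2]

end Vale.Agent.P193.Twisted
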