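import Vale.Agent.P193.Full.Twisted.Phi
import Vale.Agent.P193.Full.Twisted.VGroup

/-! The permutations of the generators satisfy the relations (P193). -/

namespace Vale.Agent.P193.Twisted

variable {Y : Type} [DecidableEq Y]

theorem inc_ft : Inc [false, false] [false, true] := inc_halves [false]

theorem inc_tf : Inc [false, true] [false, false] := inc_ft.symm

theorem ext_halves {g h : Equiv.Perm (Pt Y)}
    (e0 : ∀ x, g (pre [false] x) = h (pre [false] x))
    (e1 : ∀ x, g (pre [true] x) = h (pre [true] x)) : g = h := by
  ext1 x
  have hx : x = pre [(split none x).1] (split none x).2 := by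
    rw [pre_cons, pre_nil, cons_split]
  rw [hx]
  cases (split none x).1
  · exact e0 _
  · exact e1 _

/-- Act by the twist on the half `[false]`. -/
noncomputable def lamHom (L : Subgroup (Equiv.Perm Y)) : L →* Equiv.Perm (Pt Y) :=
  (lp (hPt (Y := Y)) [false]).comp (twist.comp L.subtype)

theorem lamHom_false {L : Subgroup (Equiv.Perm Y)} (l : L) (x : Pt Y) :
    lamHom L l (pre [false] x) = pre [false] (twist (l : Equiv.Perm Y) x) := by
  have := lp_pre (H := hPt (Y := Y)) [false] (twist (l : Equiv.Perm Y)) x
  rwa [hPt_pre, hPt_pre] at this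

theorem lamHom_true {L : Subgroup (Equiv.Perm Y)} (l : L) :
    Maps (lamHom L l) [true] [true] := fun x =>
  lp_out (H := hPt (Y := Y)) [false] _ fun ⟨z, hz⟩ => by
    rw [hPt_pre] at hz
    exact pre_ne (inc_halves []).symm x z hz

/-- The baker map of the coordinate `y` on the half `[false]`, as a table. -/
def bTab (L : Subgroup (Equiv.Perm Y)) (y : Y) : Table L where
  dom := Tree.node none (Tree.node none Tree.leaf Tree.leaf) Tree.leaf
  cod := Tree.node none (Tree.node (some y) Tree.leaf Tree.leaf) Tree.leaf
  σ := Equiv.refl _
  lab _ := 1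

theorem bTab_false {L : Subgroup (Equiv.Perm Y)} (y : Y) (c : Bool) (x : Pt Y) :
    (bTab L y).perm (pre [false, c] x) = pre [false] (cons (some y) c x) := by
  cases c
  · exact ((bTab L y).perm_point (Sum.inl (Sum.inl ())) x).trans (by
      show cons none false (cons (some y) false (twist (1 : Equiv.Perm Y) x)) = _
      rw [map_one]; rfl)
  · exact ((bTab L y).perm_point (Sum.inl (Sum.inr ())) x).trans (by
      show cons none false (cons (some y) true (twist (1 : Equiv.Perm Y) x)) = _
      rw [map_one]; rfl)

theorem bTab_true {L : Subgroup (Equiv.Perm Y)} (y : Y) :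
    Maps (bTab L y).perm [true] [true] := fun x =>
  ((bTab L y).perm_point (Sum.inr ()) x).trans (by
    show cons none true (twist (1 : Equiv.Perm Y) x) = _
    rw [map_one]; rfl)

variable (p : Param Y)

theorem fix_commute_of {v g : Equiv.Perm (Pt Y)} (hv : Maps v [false] [false])
    (hg : Maps g [true] [true]) : v * g = g * v := by
  have side : ∀ {k : Equiv.Perm (Pt Y)} {c : Bool}, Maps k [c] [c] →
      ∀ x, ∃ z, k (pre [!c] x) = pre [!c] z := by
    intro k c hk x
    have e : k (pre [!c] x) = pre [(split none (k (pre [!c] x))).1]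
        (split none (k (pre [!c] x))).2 := (cons_split none _).symm
    by_cases hc : (split none (k (pre [!c] x))).1 = !c
    · rw [hc] at e; exact ⟨_, e⟩
    · have hc' : (split none (k (pre [!c] x))).1 = c := by
        cases c <;> simpa using hc
      rw [hc', ← hk] at e
      exact absurd (k.injective e) (pre_ne (by cases c <;>
        simp [Inc, List.cons_prefix_cons]) _ _)
  refine ext_halves (fun x => ?_) fun x => ?_
  · obtain ⟨z, hz⟩ : ∃ z, g (pre [false] x) = pre [false] z := side hg x
    rw [Equiv.Perm.mul_apply, Equiv.Perm.mul_apply, hv x, hz, hv z]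
  · obtain ⟨z, hz⟩ : ∃ z, v (pre [true] x) = pre [true] z := side hv x
    rw [Equiv.Perm.mul_apply, Equiv.Perm.mul_apply, hg x, hz, hg z]

/-- The concrete permutations form a base. -/
noncomputable def base₀ : Base p (Equiv.Perm (Pt Y)) where
  ιV := p.V.subtype
  ιL := lamHom p.L
  b := (bTab p.L p.y₀).perm
  ev := MonoidHom.id _
  ev_V _ := rfl
  ev_L := lamHom_false
  ev_L' := lamHom_true
  ev_b := bTab_false p.y₀
  ev_b' := bTab_true p.y₀
  r_fixL _ hv l := fix_commute_of hv (lamHom_true l)
  r_fixb _ hv := fix_commute_of hv (bTab_true p.y₀)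
  r_stab l hl := by
    refine ext_halves (fun x => ?_) fun x => ?_
    · rw [← cons_split none x]
      have e : ∀ c z, pre [false] (cons none c z) = pre [false, c] (Y := Y) z := fun _ _ => rfl
      have h1 : ∀ c z, twist (l : Equiv.Perm Y) (cons none c z) =
          cons none c (twist (l : Equiv.Perm Y) z) := fun c z => by rw [twist_cons, lft_none]
      rw [Equiv.Perm.mul_apply, Equiv.Perm.mul_apply, e, bTab_false, lamHom_false, twist_cons,
        lft_some, hl, ← e, lamHom_false, h1, e, bTab_false]
    · rw [Equiv.Perm.mul_apply, Equiv.Perm.mul_apply, bTab_true p.y₀ x, lamHom_true l x,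
        bTab_true p.y₀ x]

theorem q_fix {q : Equiv.Perm (Pt Y)} (hq : q ∈ Set.range (lamHom p.L) ∪ {(bTab p.L p.y₀).perm}) :
    q ∈ (base₀ p).Q := Subgroup.subset_closure hq

theorem place₀ {c : Bool} (q : Equiv.Perm (Pt Y)) {x z : Pt Y}
    (h : q (pre [false] x) = pre [false] z) :
    (base₀ p).place [false, c] q (pre [false, c] x) = pre [false, c] z :=
  (base₀ p).ev_place (List.cons_ne_nil _ _) q h

theorem place₀_fix {u w : List Bool} (h : Inc u w) {q : Equiv.Perm (Pt Y)}
    (hq : q ∈ (base₀ p).Q) : Maps ((base₀ p).place u q) w w :=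
  (base₀ p).ev_place_fix h hq

theorem conj_b_apply {l : p.L} (c : Bool) (x : Pt Y) :
    (lamHom p.L l * (bTab p.L p.y₀).perm * (lamHom p.L l)⁻¹) (pre [false, c] x) =
      pre [false] (cons (some ((l : Equiv.Perm Y) p.y₀)) c x) := by
  have h : (lamHom p.L l)⁻¹ (pre [false, c] x) =
      pre [false, c] (twist (l : Equiv.Perm Y)⁻¹ x) := by
    rw [← map_inv]
    refine (lamHom_false l⁻¹ (pre [c] x)).trans ?_
    rw [Subgroup.coe_inv, twist_pre]
    rfl
  rw [Equiv.Perm.mul_apply, Equiv.Perm.mul_apply, h, bTab_false, lamHom_false, twist_cons,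
    lft_some, twist_inv_right]

/-- The concrete permutations satisfy all relations. -/
noncomputable def rels₀ : Rels p (Equiv.Perm (Pt Y)) where
  toBase := base₀ p
  r_top q hq q' hq' := by
    have hq₁ : q ∈ (base₀ p).Q := q_fix p hq
    exact (fix_commute_of (place₀_fix p (inc_halves []).symm (q_fix p hq'))
      ((base₀ p).ev_fix hq₁)).symm
  r_sub q hq q' hq' := by
    refine ext_halves (fun x => ?_) fun x => ?_
    · rw [← cons_split none x]
      set c := (split none x).1
      set z := (split none x).2
      show ((base₀ p).place [false, false] q * (base₀ p).place [false, true] q') (pre [false, c] z) =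
        ((base₀ p).place [false, true] q' * (base₀ p).place [false, false] q) (pre [false, c] z)
      have side : ∀ d e : Bool, d ≠ e → ∀ r ∈ (base₀ p).Q, ∀ w,
          ∃ w', (base₀ p).place [false, d] r (pre [false, d] w) = pre [false, d] w' ∧
            ∀ s ∈ (base₀ p).Q, (base₀ p).place [false, e] s (pre [false, d] w') =
              pre [false, d] w' := by
        intro d e hde r hr w
        obtain ⟨w', hw⟩ : ∃ w', r (pre [false] w) = pre [false] w' := by
          have hc : ∀ y : Pt Y, y = pre [(split none y).1] (split none y).2 := fun y => by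
            rw [pre_cons, pre_nil, cons_split]
          cases hb : (split none (r (pre [false] w))).1 with
          | false => exact ⟨_, hb ▸ hc _⟩
          | true =>
            have e1 := hc (r (pre [false] w))
            rw [hb, ← ((base₀ p).ev_fix hr) _] at e1
            exact absurd (r.injective e1) (pre_ne (inc_halves []) _ _)
        refine ⟨w', place₀ p r hw, fun s hs => place₀_fix p ?_ hs w'⟩
        cases d <;> cases e <;> first | exact absurd rfl hde | simp [Inc, List.cons_prefix_cons]
      rw [Equiv.Perm.mul_apply, Equiv.Perm.mul_apply]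
      cases c
      · obtain ⟨w', h1, h2⟩ := side false true (by decide) q (q_fix p hq) z
        rw [h1, h2 q' (q_fix p hq'), place₀_fix p inc_tf (q_fix p hq') z, h1]
      · obtain ⟨w', h1, h2⟩ := side true false (by decide) q' (q_fix p hq') z
        rw [h1, h2 q (q_fix p hq), place₀_fix p inc_ft (q_fix p hq) z, h1]
    · rw [Equiv.Perm.mul_apply, Equiv.Perm.mul_apply,
        place₀_fix p (w := [true]) (by simp [Inc, List.cons_prefix_cons]) (q_fix p hq') x,
        place₀_fix p (w := [true]) (by simp [Inc, List.cons_prefix_cons]) (q_fix p hq) x,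
        place₀_fix p (w := [true]) (by simp [Inc, List.cons_prefix_cons]) (q_fix p hq') x]
  r_splitL l := by
    have hl : lamHom p.L l ∈ (base₀ p).Q := Subgroup.subset_closure (Or.inl ⟨l, rfl⟩)
    refine ext_halves (fun x => ?_) fun x => ?_
    · rw [← cons_split none x]
      set c := (split none x).1
      set z := (split none x).2
      show lamHom p.L l (pre [false, c] z) = _
      have h1 : lamHom p.L l (pre [false, c] z) = pre [false, c] (twist (l : Equiv.Perm Y) z) := by
        refine (lamHom_false l (pre [c] z)).trans ?_
        rw [twist_pre]; rfl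
      have h2 : ∀ d, (base₀ p).place [false, d] (lamHom p.L l) (pre [false, d] z) =
          pre [false, d] (twist (l : Equiv.Perm Y) z) := fun d => place₀ p _ (lamHom_false l z)
      rw [h1]
      cases c
      · show _ = (base₀ p).place [false, false] (lamHom p.L l)
          ((base₀ p).place [false, true] (lamHom p.L l) (pre [false, false] z))
        rw [place₀_fix p inc_tf hl z, h2]
      · show _ = (base₀ p).place [false, false] (lamHom p.L l)
          ((base₀ p).place [false, true] (lamHom p.L l) (pre [false, true] z))
        rw [h2, place₀_fix p inc_ft hl]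
    · show lamHom p.L l (pre [true] x) = (base₀ p).place [false, false] (lamHom p.L l)
        ((base₀ p).place [false, true] (lamHom p.L l) (pre [true] x))
      rw [place₀_fix p (w := [true]) (by simp [Inc, List.cons_prefix_cons]) hl x,
        place₀_fix p (w := [true]) (by simp [Inc, List.cons_prefix_cons]) hl x, lamHom_true l x]
  r_splitb := by
    have hb : (bTab p.L p.y₀).perm ∈ (base₀ p).Q := Subgroup.subset_closure (Or.inr rfl)
    refine V_ext_quarters fun c₁ c d x => ?_
    show (bTab p.L p.y₀).perm _ = (base₀ p).place [false, false] (bTab p.L p.y₀).perm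
      ((base₀ p).place [false, true] (bTab p.L p.y₀).perm ((p.flip₀ : Equiv.Perm (Pt Y)) _))
    cases c₁
    · have h1 : (bTab p.L p.y₀).perm (pre [false, c, d] x) =
          pre [false] (cons (some p.y₀) c (pre [d] x)) := bTab_false p.y₀ c (pre [d] x)
      have h2 : ∀ e, (base₀ p).place [false, e] (bTab p.L p.y₀).perm (pre [false, e, c] x) =
          pre [false, e] (cons (some p.y₀) c x) := fun e => by
        have := place₀ p (c := e) _ (x := pre [c] x) (bTab_false (L := p.L) p.y₀ c x)
        exact this
      have h3 : pre [false] (cons (some p.y₀) c (pre [d] x)) =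
          pre [false, d] (cons (some p.y₀) c x) := by
        simp only [pre_cons, pre_nil]
        rw [cons_comm (a := some p.y₀) (b := none) (by simp) c d]
      rw [p.flip₀_false, h1, h3]
      cases d
      · rw [show pre [false, false, c] x = pre [false, false] (pre [c] x) from rfl,
          place₀_fix p inc_tf hb]
        exact (h2 false).symm
      · rw [h2 true, place₀_fix p inc_ft hb]
    · have e1 : ∀ {g : Equiv.Perm (Pt Y)}, Maps g [true] [true] →
          g (pre [true, c, d] x) = pre [true, c, d] x := fun hg => hg.extend [c, d] x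
      rw [e1 p.flip₀_true, e1 (bTab_true p.y₀), e1 (place₀_fix p
        (by simp [Inc, List.cons_prefix_cons]) hb), e1 (place₀_fix p
        (by simp [Inc, List.cons_prefix_cons]) hb)]
  r_cube l hl := by
    have hb : (bTab p.L p.y₀).perm ∈ (base₀ p).Q := Subgroup.subset_closure (Or.inr rfl)
    set b := (bTab p.L p.y₀).perm
    set b₁ := lamHom p.L l * b * (lamHom p.L l)⁻¹ with hb₁
    have hq : b₁ ∈ (base₀ p).Q :=
      mul_mem (mul_mem (Subgroup.subset_closure (Or.inl ⟨l, rfl⟩)) hb)
        (inv_mem (Subgroup.subset_closure (Or.inl ⟨l, rfl⟩)))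
    have hc : ∀ c (x : Pt Y), b₁ (pre [false, c] x) = pre [false] (cons (some p.y₁) c x) :=
      fun c x => by rw [hb₁, conj_b_apply, hl]
    refine V_ext_quarters fun c₁ c d x => ?_
    show b ((base₀ p).place [false, false] b₁ ((base₀ p).place [false, true] b₁ _)) =
      b₁ ((base₀ p).place [false, false] b ((base₀ p).place [false, true] b
        ((p.flip₀ : Equiv.Perm (Pt Y)) _)))
    cases c₁
    · have h2 : ∀ {q : Equiv.Perm (Pt Y)} {y : Y},
          (∀ c (x : Pt Y), q (pre [false, c] x) = pre [false] (cons (some y) c x)) → ∀ e f,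
          (base₀ p).place [false, e] q (pre [false, e, f] x) = pre [false, e] (cons (some y) f x) :=
        fun {q y} hqy e f => place₀ p (c := e) q (x := pre [f] x) (hqy f x)
      have hne : (some p.y₀ : Co Y) ≠ some p.y₁ := fun e => p.ne (Option.some.inj e)
      rw [p.flip₀_false]
      have eL : ∀ e f, (base₀ p).place [false, false] b₁ ((base₀ p).place [false, true] b₁
          (pre [false, e, f] x)) = pre [false, e] (cons (some p.y₁) f x) := by
        intro e f
        cases e
        · rw [show pre [false, false, f] x = pre [false, false] (pre [f] x) from rfl,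
            place₀_fix p inc_tf hq]
          exact h2 hc false f
        · rw [h2 hc true f, place₀_fix p inc_ft hq]
      have eR : ∀ e f, (base₀ p).place [false, false] b ((base₀ p).place [false, true] b
          (pre [false, e, f] x)) = pre [false, e] (cons (some p.y₀) f x) := by
        intro e f
        cases e
        · rw [show pre [false, false, f] x = pre [false, false] (pre [f] x) from rfl,
            place₀_fix p inc_tf hb]
          exact h2 (bTab_false p.y₀) false f
        · rw [h2 (bTab_false p.y₀) true f, place₀_fix p inc_ft hb]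
      rw [eL, eR, bTab_false, hc, cons_comm hne]
    · have e1 : ∀ {g : Equiv.Perm (Pt Y)}, Maps g [true] [true] →
          g (pre [true, c, d] x) = pre [true, c, d] x := fun hg => hg.extend [c, d] x
      have hb1 : Maps b₁ [true] [true] := (base₀ p).ev_fix hq
      rw [e1 p.flip₀_true, e1 (place₀_fix p (by simp [Inc, List.cons_prefix_cons]) hq),
        e1 (place₀_fix p (by simp [Inc, List.cons_prefix_cons]) hq), e1 (bTab_true p.y₀),
        e1 (place₀_fix p (by simp [Inc, List.cons_prefix_cons]) hb),
        e1 (place₀_fix p (by simp [Inc, List.cons_prefix_cons]) hb), e1 hb1]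

end Vale.Agent.P193.Twisted
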