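import Vale.Agent.P193.Full.Twisted.Trees
import Mathlib.Algebra.Group.Subgroup.Basic
import Mathlib.GroupTheory.Perm.Basic

/-! Operations on tables and the twisted group of all table permutations (P193). -/

namespace Vale.Agent.P193.Twisted

variable {Y : Type} [DecidableEq Y] {L : Subgroup (Equiv.Perm Y)}

namespace Tree

/-- Apply a permutation of `Y` to all labels. -/
def relabel (l : Equiv.Perm Y) : Tree Y → Tree Y
  | leaf => leaf
  | node a A B => node (lft l a) (A.relabel l) (B.relabel l)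

/-- The leaves of a relabelled tree. -/
def relabelEquiv (l : Equiv.Perm Y) : (T : Tree Y) → T.Leaf ≃ (T.relabel l).Leaf
  | leaf => Equiv.refl _
  | node _ A B => Equiv.sumCongr (A.relabelEquiv l) (B.relabelEquiv l)

theorem twist_point (l : Equiv.Perm Y) : ∀ (T : Tree Y) (i : T.Leaf) (x : Pt Y),
    twist l (T.point i x) = (T.relabel l).point (T.relabelEquiv l i) (twist l x)
  | leaf, _, _ => rfl
  | node a A B, Sum.inl i, x => by
    rw [point, twist_cons, twist_point l A]; rfl
  | node a A B, Sum.inr i, x => by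
    rw [point, twist_cons, twist_point l B]; rfl

theorem point_inj {T : Tree Y} {i j : T.Leaf} {x y : Pt Y} (h : T.point i x = T.point j y) :
    i = j ∧ x = y := by
  have := congrArg T.locate h
  rw [locate_point, locate_point] at this
  exact Prod.mk.inj this

end Tree

theorem twist_inv_right (l : Equiv.Perm Y) (x : Pt Y) : twist l (twist l⁻¹ x) = x := by
  rw [← Equiv.Perm.mul_apply, ← map_mul, mul_inv_cancel, map_one, Equiv.Perm.one_apply]

/-- Move a sigma type along an equivalence of its base. -/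
def sigmaShift {A B : Type} (σ : A ≃ B) (β : A → Type) : (Σ i, β i) ≃ Σ j, β (σ.symm j) :=
  (σ.symm.sigmaCongrLeft (β := β)).symm

theorem sigmaShift_apply {A B : Type} (σ : A ≃ B) {β : A → Type} (j : B) (x : β (σ.symm j)) :
    sigmaShift σ β ⟨σ.symm j, x⟩ = ⟨j, x⟩ :=
  (Equiv.symm_apply_eq _).2 rfl

namespace Table

/-- The permutation given by the data of a table. -/
theorem perm_mk {D C : Tree Y} {σ : D.Leaf ≃ C.Leaf} {lab : D.Leaf → L} {g : Equiv.Perm (Pt Y)}
    (h : ∀ i x, g (D.point i x) = C.point (σ i) (twist (lab i : Equiv.Perm Y) x)) :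
    (⟨D, C, σ, lab⟩ : Table L).perm = g :=
  (Table.perm_unique _ g h).symm

/-- The inverse table. -/
def inv (t : Table L) : Table L where
  dom := t.cod
  cod := t.dom
  σ := t.σ.symm
  lab j := (t.lab (t.σ.symm j))⁻¹

theorem inv_perm (t : Table L) : t.inv.perm = t.perm⁻¹ := by
  unfold Table.inv
  refine perm_mk fun j x => ?_
  refine Equiv.Perm.inv_eq_iff_eq.2 ?_
  rw [perm_point, Equiv.apply_symm_apply, Subgroup.coe_inv, twist_inv_right]

/-- Expand the leaves of the domain, and the leaves of the range accordingly. -/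
def expand (t : Table L) (f : t.dom.Leaf → Tree Y) : Table L where
  dom := t.dom.graft f
  cod := t.cod.graft fun j => (f (t.σ.symm j)).relabel (t.lab (t.σ.symm j) : Equiv.Perm Y)
  σ := ((t.dom.graftEquiv f).trans ((Equiv.sigmaCongrRight fun i =>
      (f i).relabelEquiv (t.lab i : Equiv.Perm Y)).trans
      (sigmaShift t.σ fun i => ((f i).relabel (t.lab i : Equiv.Perm Y)).Leaf))).trans
      (t.cod.graftEquiv
        fun j => (f (t.σ.symm j)).relabel (t.lab (t.σ.symm j) : Equiv.Perm Y)).symm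
  lab k := t.lab (t.dom.graftEquiv f k).1

theorem expand_perm (t : Table L) (f : t.dom.Leaf → Tree Y) : (t.expand f).perm = t.perm := by
  unfold Table.expand
  refine perm_mk fun k x => ?_
  rw [Tree.graft_point, perm_point, Tree.twist_point, Tree.graft_point]
  simp only [Equiv.trans_apply, Equiv.apply_symm_apply]
  generalize t.dom.graftEquiv f k = p
  obtain ⟨i, j⟩ := p
  obtain ⟨i, rfl⟩ := t.σ.symm.surjective i
  rw [show (Equiv.sigmaCongrRight fun i => (f i).relabelEquiv (t.lab i : Equiv.Perm Y))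
      ⟨t.σ.symm i, j⟩ = ⟨t.σ.symm i, (f _).relabelEquiv _ j⟩ from rfl,
    sigmaShift_apply t.σ]
  generalize hq : (t.cod.graftEquiv fun j => (f (t.σ.symm j)).relabel _)
    ((t.cod.graftEquiv fun j => (f (t.σ.symm j)).relabel _).symm _) = q
  rw [Equiv.apply_symm_apply] at hq
  subst hq
  simp only [Equiv.apply_symm_apply]


/-- Replace the domain tree by one with the same bricks. -/
def retarget (t : Table L) (S : Tree Y) (e : S.Leaf ≃ t.dom.Leaf) : Table L where
  dom := S
  cod := t.cod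
  σ := e.trans t.σ
  lab i := t.lab (e i)

theorem retarget_perm (t : Table L) (S : Tree Y) (e : S.Leaf ≃ t.dom.Leaf)
    (he : ∀ i x, t.dom.point (e i) x = S.point i x) : (t.retarget S e).perm = t.perm := by
  unfold Table.retarget
  refine perm_mk fun k x => ?_
  rw [← he, perm_point]
  rfl

/-- A table can be moved to any finer domain. -/
theorem exists_dom (t : Table L) {S : Tree Y} (h : Tree.Refines S t.dom) :
    ∃ t' : Table L, t'.dom = S ∧ t'.perm = t.perm := by
  obtain ⟨f, hf⟩ := Tree.exists_graft t.dom S h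
  obtain ⟨e, he⟩ := hf.sameBricks
  exact ⟨(t.expand f).retarget S e, rfl,
    ((t.expand f).retarget_perm S e he).trans (t.expand_perm f)⟩

/-- Compose two tables with the same domain, the first one inverted. -/
def comp (t₁ t₂ : Table L) (h : t₁.dom = t₂.dom) : Table L where
  dom := t₁.cod
  cod := t₂.cod
  σ := t₁.σ.symm.trans ((Equiv.cast (congrArg Tree.Leaf h)).trans t₂.σ)
  lab j := t₂.lab (Equiv.cast (congrArg Tree.Leaf h) (t₁.σ.symm j)) * (t₁.lab (t₁.σ.symm j))⁻¹

theorem comp_perm (t₁ t₂ : Table L) (h : t₁.dom = t₂.dom) :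
    (t₁.comp t₂ h).perm = t₂.perm * t₁.perm⁻¹ := by
  obtain ⟨d₁, c₁, σ₁, l₁⟩ := t₁
  obtain ⟨d₂, c₂, σ₂, l₂⟩ := t₂
  cases h
  unfold Table.comp
  refine perm_mk fun j x => ?_
  obtain ⟨i, rfl⟩ := σ₁.surjective j
  simp only [Table.comp, Equiv.cast_refl, Equiv.refl_trans, Equiv.refl_apply, Equiv.trans_apply,
    Equiv.symm_apply_apply, Equiv.Perm.mul_apply, Subgroup.coe_mul, Subgroup.coe_inv, map_mul,
    map_inv]
  have h₁ : (⟨d₁, c₁, σ₁, l₁⟩ : Table L).perm⁻¹ (c₁.point (σ₁ i) x) =
      d₁.point i ((twist (l₁ i : Equiv.Perm Y))⁻¹ x) := by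
    rw [Equiv.Perm.inv_eq_iff_eq, perm_point, ← map_inv, twist_inv_right]
  rw [h₁, perm_point]

end Table

variable (L)

/-- The twisted group. -/
def tableGroup : Subgroup (Equiv.Perm (Pt Y)) where
  carrier := {g | ∃ t : Table L, t.perm = g}
  one_mem' := ⟨⟨Tree.leaf, Tree.leaf, Equiv.refl _, fun _ => 1⟩,
    Table.perm_mk fun i x => by rw [OneMemClass.coe_one, map_one]; rfl⟩
  inv_mem' := by
    rintro g ⟨t, rfl⟩
    exact ⟨t.inv, t.inv_perm⟩
  mul_mem' := by
    rintro g h ⟨t, rfl⟩ ⟨s, rfl⟩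
    obtain ⟨S, h₁, h₂⟩ := Tree.exists_common t.dom s.inv.dom
    obtain ⟨t', ht', et⟩ := t.exists_dom h₁
    obtain ⟨s', hs', es⟩ := s.inv.exists_dom h₂
    refine ⟨s'.comp t' (hs'.trans ht'.symm), ?_⟩
    rw [Table.comp_perm, et, es, Table.inv_perm, inv_inv]

variable {L}

theorem Table.perm_mem (t : Table L) : t.perm ∈ tableGroup L := ⟨t, rfl⟩

/-- Two tables of one permutation on the same domain agree up to the bricks of their ranges. -/
theorem Table.unique_range {S U U' : Tree Y} {σ : S.Leaf ≃ U.Leaf} {σ' : S.Leaf ≃ U'.Leaf}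
    {lab lab' : S.Leaf → L}
    (h : (⟨S, U, σ, lab⟩ : Table L).perm = (⟨S, U', σ', lab'⟩ : Table L).perm) :
    lab = lab' ∧ Tree.Cube U U' ∧
      ∀ i x, U'.point (σ' i) x = U.point (σ i) x := by
  have key : ∀ i x, U.point (σ i) (twist (lab i : Equiv.Perm Y) x) =
      U'.point (σ' i) (twist (lab' i : Equiv.Perm Y) x) := fun i x => by
    have := congrArg (fun g : Equiv.Perm (Pt Y) => g (S.point i x)) h
    exact ((Table.perm_point (⟨S, U, σ, lab⟩ : Table L) i x).symm.trans this).trans
      (Table.perm_point (⟨S, U', σ', lab'⟩ : Table L) i x)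
  have r₁ : Tree.Refines U U' := fun k => by
    obtain ⟨i, rfl⟩ := σ.surjective k
    refine ⟨σ' i, fun x => ⟨twist (lab' i : Equiv.Perm Y) (twist (lab i : Equiv.Perm Y)⁻¹ x), ?_⟩⟩
    rw [← key, twist_inv_right]
  have r₂ : Tree.Refines U' U := fun k => by
    obtain ⟨i, rfl⟩ := σ'.surjective k
    refine ⟨σ i, fun x => ⟨twist (lab i : Equiv.Perm Y) (twist (lab' i : Equiv.Perm Y)⁻¹ x), ?_⟩⟩
    rw [key, twist_inv_right]
  have hc := Tree.cube_of_refines r₁ r₂
  obtain ⟨e, he⟩ := hc.sameBricks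
  have hl : ∀ i, lab i = lab' i ∧ σ' i = e (σ i) := by
    intro i
    have h1 := fun x => Tree.point_inj ((he (σ i) _).trans (key i x))
    refine ⟨Subtype.ext (twist_injective (Equiv.ext fun x => (h1 x).2)), ?_⟩
    exact ((h1 fun _ _ => false).1).symm
  exact ⟨funext fun i => (hl i).1, hc, fun i x => by rw [(hl i).2, he]⟩

end Vale.Agent.P193.Twisted
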