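import Vale.Agent.P193.Full.Twisted.Calc
import Mathlib.Tactic.Tauto

/-! Covariance, evaluation and the cube relation at every prefix (P193). -/

namespace Vale.Agent.P193.Twisted

variable {Y : Type} [DecidableEq Y]

/-- A prefix map of a bijection from the empty word is onto the empty word. -/
theorem maps_nil {g : Equiv.Perm (Pt Y)} {w : List Bool} (h : Maps g [] w) : w = [] := by
  cases w with
  | nil => rfl
  | cons c w =>
    obtain ⟨x, hx⟩ := g.surjective (cons none (!c) fun _ _ => false)
    have := (h x).symm.trans hx
    rw [pre_cons, cons_inj] at this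
    exact absurd this.1 (by cases c <;> decide)

theorem maps_of_nil {g : Equiv.Perm (Pt Y)} {u : List Bool} (h : Maps g u []) : u = [] :=
  maps_nil h.inv

namespace Base

variable {p : Param Y} {P : Type} [Group P] (B : Base p P)

theorem ev_fix {q : P} (hq : q ∈ B.Q) : Maps (B.ev q) [true] [true] := by
  induction hq using Subgroup.closure_induction with
  | mem x hx =>
    rcases hx with ⟨l, rfl⟩ | rfl
    · exact B.ev_L' l
    · exact B.ev_b'
  | one => rw [map_one]; exact Maps.one _
  | mul x y _ _ hx hy => rw [map_mul]; exact hy.mul hx
  | inv x _ hx => rw [map_inv]; exact hx.inv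

theorem ev_place {u : List Bool} (hu : u ≠ []) (q : P) {x z : Pt Y}
    (h : B.ev q (pre [false] x) = pre [false] z) : B.ev (B.place u q) (pre u x) = pre u z := by
  rw [place_apply, map_mul, map_mul, map_inv, B.ev_V, Equiv.Perm.mul_apply,
    Equiv.Perm.mul_apply, ((p.kTo_maps hu).inv x), h, p.kTo_maps hu z]

theorem ev_place_fix {u w : List Bool} (h : Inc u w) {q : P} (hq : q ∈ B.Q) :
    Maps (B.ev (B.place u q)) w w := by
  have hu : u ≠ [] := fun e => h.1 (e ▸ List.nil_prefix)
  intro x
  rw [place_apply, map_mul, map_mul, map_inv, B.ev_V, Equiv.Perm.mul_apply, Equiv.Perm.mul_apply]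
  set z := (p.kTo u : Equiv.Perm (Pt Y))⁻¹ (pre w x) with hz
  have hz' : (p.kTo u : Equiv.Perm (Pt Y)) z = pre w x :=
    ((Equiv.Perm.inv_eq_iff_eq).1 hz.symm).symm
  have hzd : z = pre [(split none z).1] (split none z).2 := by
    rw [pre_cons, pre_nil, cons_split]
  cases hb : (split none z).1 with
  | false =>
    rw [hb] at hzd
    rw [hzd, p.kTo_maps hu] at hz'
    exact absurd hz' (pre_ne h _ _)
  | true =>
    rw [hb] at hzd
    rw [hzd, B.ev_fix hq, ← hzd, hz']

end Base

namespace Rels

variable {p : Param Y} {P : Type} [Group P] (R : Rels p P)

theorem V_eq {v v' : p.V} (h : (v : Equiv.Perm (Pt Y)) = v') : R.ιV v = R.ιV v' := by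
  rw [Subtype.ext h]

theorem lam_move {v : p.V} {u w : List Bool} (hv : Maps (v : Equiv.Perm (Pt Y)) u w) (l : p.L) :
    R.ιV v * R.Lam u l * (R.ιV v)⁻¹ = R.Lam w l := by
  by_cases hu : u = []
  · subst hu
    obtain rfl := maps_nil hv
    have : v = 1 := Subtype.ext (Equiv.ext hv)
    simp [this]
  · have hw : w ≠ [] := fun e => hu (maps_of_nil (e ▸ hv))
    rw [R.lam_ne hu, R.lam_ne hw, R.toBase.place_move hu hw hv (R.toBase.ιL_mem l)]

theorem bat_move {v : p.V} {u w : List Bool} (hv : Maps (v : Equiv.Perm (Pt Y)) u w) (a : Co Y) :
    R.ιV v * R.Bat u a * (R.ιV v)⁻¹ = R.Bat w a := by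
  by_cases hu : u = []
  · subst hu
    obtain rfl := maps_nil hv
    have : v = 1 := Subtype.ext (Equiv.ext hv)
    simp [this]
  · have hw : w ≠ [] := fun e => hu (maps_of_nil (e ▸ hv))
    rw [R.bat_ne hu, R.bat_ne hw, R.toBase.place_move hu hw hv (R.bC_mem a)]

theorem lam_bat (u : List Bool) (l : p.L) (a : Co Y) :
    R.Lam u l * R.Bat u a = R.Bat u (lft (l : Equiv.Perm Y) a) * R.Lam u l := by
  have ne : ∀ {w : List Bool}, w ≠ [] → ∀ a,
      R.Lam w l * R.Bat w a = R.Bat w (lft (l : Equiv.Perm Y) a) * R.Lam w l := fun {w} hw a => by
    rw [R.lam_ne hw, R.bat_ne hw, R.bat_ne hw, ← map_mul, ← map_mul, R.lam_bC]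
  by_cases hu : u = []
  · subst hu
    cases a with
    | none => simp [R.bat_none]
    | some y =>
      rw [lft_some]
      simp only [R.bat_split [], List.nil_append]
      have c₁ : Commute (R.Lam [true] l) (R.Bat [false] (some y)) := by
        rw [R.lam_ne (by simp), R.bat_ne (by simp)]
        exact R.commute_place (inc_halves []).symm (R.toBase.ιL_mem l) (R.bC_mem _)
      have c₂ : Commute (R.Lam [false] l) (R.Bat [true] (some ((l : Equiv.Perm Y) y))) := by
        rw [R.lam_ne (by simp), R.bat_ne (by simp)]
        exact R.commute_place (inc_halves []) (R.toBase.ιL_mem l) (R.bC_mem _)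
      have hF : R.Lam [] l * R.ιV (p.flipAt []) = R.ιV (p.flipAt []) * R.Lam [] l := by
        have h4 : R.Lam [] l = R.Lam [false, false] l * R.Lam [false, true] l *
            (R.Lam [true, false] l * R.Lam [true, true] l) := by
          rw [R.lam_split [], R.lam_split ([] ++ [false]), R.lam_split ([] ++ [true])]; rfl
        symm
        rw [← mul_inv_eq_iff_eq_mul, ← MulAut.conj_apply]
        conv_lhs => rw [h4]
        conv_rhs => rw [h4]
        have hm : ∀ c d, MulAut.conj (R.ιV (p.flipAt [])) (R.Lam [c, d] l) = R.Lam [d, c] l :=
          fun c d => R.lam_move (p.flipAt_maps [] c d) l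
        simp only [map_mul, hm]
        refine Commute.mul_mul_mul_comm ?_ _ _
        rw [R.lam_ne (by simp), R.lam_ne (by simp)]
        exact R.commute_place (by constructor <;> simp [List.cons_prefix_cons])
          (R.toBase.ιL_mem l) (R.toBase.ιL_mem l)
      have h0 := ne (List.cons_ne_nil false []) (some y)
      have h1 := ne (List.cons_ne_nil true []) (some y)
      rw [lft_some] at h0 h1
      calc R.Lam [] l * (R.Bat [false] (some y) * R.Bat [true] (some y) * R.ιV (p.flipAt []))
          = R.Lam [false] l * R.Bat [false] (some y) * (R.Lam [true] l * R.Bat [true] (some y)) *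
              R.ιV (p.flipAt []) := by
            rw [R.lam_split [], List.nil_append, List.nil_append, ← mul_assoc,
              c₁.mul_mul_mul_comm]
        _ = R.Bat [false] (some ((l : Equiv.Perm Y) y)) *
              R.Bat [true] (some ((l : Equiv.Perm Y) y)) *
              (R.Lam [] l * R.ιV (p.flipAt [])) := by
            rw [h0, h1, c₂.mul_mul_mul_comm, R.lam_split [], List.nil_append, List.nil_append]
            group
        _ = _ := by rw [hF]; group
  · exact ne hu a

theorem flipR_identity :
    p.flipAt [false] * p.flipAt [true] * p.flipR * p.flipAt [false] * p.flipAt [true] * p.flipR =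
      p.flipR * p.flipAt [false] * p.flipAt [true] := by
  refine Subtype.ext (V_ext_quarters fun c₁ c₂ c₃ x => ?_)
  simp only [Subgroup.coe_mul, Equiv.Perm.mul_apply]
  have hF : ∀ a b c, (p.flipR : Equiv.Perm (Pt Y)) (pre [a, b, c] x) = pre [b, a, c] x :=
    fun a b c => (p.flipR_maps a b).extend [c] x
  have hG : ∀ a b c, (p.flipAt [false] : Equiv.Perm (Pt Y))
      ((p.flipAt [true] : Equiv.Perm (Pt Y)) (pre [a, b, c] x)) = pre [a, c, b] x := by
    intro a b c
    cases a
    · have e := (p.flipAt_fix (inc_halves []).symm).extend [b, c] x
      simp only [List.nil_append, List.cons_append] at e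
      rw [e]; exact p.flipAt_maps [false] b c x
    · rw [show (p.flipAt [true] : Equiv.Perm (Pt Y)) (pre [true, b, c] x) = pre [true, c, b] x from
        p.flipAt_maps [true] b c x]
      have e := (p.flipAt_fix (inc_halves [])).extend [c, b] x
      simpa only [List.nil_append, List.cons_append] using e
  simp only [hF, hG]

theorem bat_cube' {a b : Co Y} (h : a ≠ b) (u : List Bool) :
    R.Bat u a * R.Bat (u ++ [false]) b * R.Bat (u ++ [true]) b =
      R.Bat u b * R.Bat (u ++ [false]) a * R.Bat (u ++ [true]) a * R.ιV (p.flipAt u) := by
  by_cases hu : u = []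
  swap
  · exact R.bat_cube h hu
  subst hu
  cases a with
  | none =>
    cases b with
    | none => exact absurd rfl h
    | some z =>
      simp only [R.bat_none, one_mul, mul_one]
      conv_rhs => rw [R.bat_split [] z]
      have : p.flipAt [] * p.flipAt [] = 1 := Subtype.ext (V_ext_quarters fun c₁ c₂ c₃ x => by
        have e := fun c d => (p.flipAt_maps [] c d).extend [c₃] x
        simp only [List.nil_append, List.cons_append] at e
        rw [Subgroup.coe_mul, Equiv.Perm.mul_apply, e, e]; rfl)
      rw [mul_assoc _ (R.ιV (p.flipAt [])) _, ← map_mul, this, map_one, mul_one]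
  | some y =>
    cases b with
    | none => simp only [R.bat_none, one_mul, mul_one]; exact R.bat_split [] y
    | some z =>
      simp only [List.nil_append]
      have hn : ∀ {w : List Bool}, w ≠ [] → ∀ (a : Co Y),
          R.Bat w a = R.toBase.place w (R.bC a) := fun hw a => R.bat_ne hw a
      have cm : ∀ {v w : List Bool}, Inc v w → ∀ (a c : Co Y),
          Commute (R.Bat v a) (R.Bat w c) := fun {v w} hvw a c => by
        rw [hn (fun e => hvw.1 (by rw [e]; exact List.nil_prefix)),
          hn (fun e => hvw.2 (by rw [e]; exact List.nil_prefix))]
        exact R.commute_place hvw (R.bC_mem a) (R.bC_mem c)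
      have cf : ∀ c d, ∀ a : Co Y, c ≠ d →
          Commute (R.ιV (p.flipAt [c])) (R.Bat [d] a) := fun c d a hcd => by
        have := R.bat_move (p.flipAt_fix (u := [c]) (w := [d])
          (by constructor <;> simp [List.cons_prefix_cons, hcd, Ne.symm hcd])) a
        exact mul_inv_eq_iff_eq_mul.1 this
      have cf2 : ∀ c d e, ∀ a : Co Y, c ≠ d →
          Commute (R.ιV (p.flipAt [c])) (R.Bat [d, e] a) := fun c d e a hcd => by
        have := R.bat_move ((p.flipAt_fix (u := [c]) (w := [d])
          (by constructor <;> simp [List.cons_prefix_cons, hcd, Ne.symm hcd])).extend [e]) a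
        exact mul_inv_eq_iff_eq_mul.1 this
      set A := fun u => R.Bat u (some y) with hA
      set B := fun u => R.Bat u (some z) with hB
      set F := R.ιV p.flipR with hF
      set F0 := R.ιV (p.flipAt [false]) with hF0
      set F1 := R.ιV (p.flipAt [true]) with hF1
      have inc2 : ∀ a b c d : Bool, (a, b) ≠ (c, d) → Inc [a, b] [c, d] := by
        intro a b c d hne
        cases a <;> cases b <;> cases c <;> cases d <;>
          simp [Inc, List.cons_prefix_cons] at hne ⊢
      -- moving four quarters across the flip
      have hswap : ∀ a : Co Y, F * (R.Bat [false, false] a * R.Bat [false, true] a *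
          (R.Bat [true, false] a * R.Bat [true, true] a)) =
          R.Bat [false, false] a * R.Bat [false, true] a *
          (R.Bat [true, false] a * R.Bat [true, true] a) * F := fun a => by
        rw [← mul_inv_eq_iff_eq_mul, ← MulAut.conj_apply]
        have hm : ∀ c d, MulAut.conj F (R.Bat [c, d] a) = R.Bat [d, c] a := fun c d =>
          R.bat_move (p.flipR_maps c d) a
        simp only [map_mul, hm]
        exact (cm (inc2 _ _ _ _ (by decide)) a a).mul_mul_mul_comm _ _
      have hR : ∀ a : Y, R.Bat [] (some a) =
          R.Bat [false] (some a) * R.Bat [true] (some a) * F := fun a => by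
        rw [R.bat_split [] a]; simp [hF, Param.flipAt]
      have hS : ∀ (c : Bool) (a : Y), R.Bat [c] (some a) = R.Bat [c, false] (some a) *
          R.Bat [c, true] (some a) * R.ιV (p.flipAt [c]) := fun c a => by
        simpa using R.bat_split [c] a
      have hC : ∀ c : Bool, R.Bat [c] (some y) * R.Bat [c, false] (some z) *
          R.Bat [c, true] (some z) = R.Bat [c] (some z) * R.Bat [c, false] (some y) *
          R.Bat [c, true] (some y) * R.ιV (p.flipAt [c]) := fun c => by
        simpa using R.bat_cube h (List.cons_ne_nil c [])
      have quad : ∀ a : Y, R.Bat [false] (some a) * R.Bat [true] (some a) =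
          R.Bat [false, false] (some a) * R.Bat [false, true] (some a) *
            (R.Bat [true, false] (some a) * R.Bat [true, true] (some a)) * (F0 * F1) := fun a => by
        rw [hS false, hS true, ← hF0, ← hF1]
        have c' : Commute F0 (R.Bat [true, false] (some a) * R.Bat [true, true] (some a)) :=
          (cf2 false true false _ (by decide)).mul_right (cf2 false true true _ (by decide))
        calc _ = R.Bat [false, false] (some a) * R.Bat [false, true] (some a) *
              (F0 * (R.Bat [true, false] (some a) * R.Bat [true, true] (some a))) * F1 := by group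
          _ = _ := by rw [c'.eq]; group
      have hV : F0 * F1 * F * F0 * F1 * F = F * F0 * F1 := by
        simp only [hF, hF0, hF1, ← map_mul, flipR_identity (p := p)]
      have cA : Commute (R.Bat [true] (some y))
          (R.Bat [false, false] (some z) * R.Bat [false, true] (some z)) :=
        (cm (by constructor <;> simp [List.cons_prefix_cons]) _ _).mul_right
          (cm (by constructor <;> simp [List.cons_prefix_cons]) _ _)
      have cB : Commute (R.Bat [false, false] (some y) * R.Bat [false, true] (some y) * F0)
          (R.Bat [true] (some z)) :=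
        ((cm (by constructor <;> simp [List.cons_prefix_cons]) _ _).mul_left
          (cm (by constructor <;> simp [List.cons_prefix_cons]) _ _)).mul_left
          (cf false true _ (by decide))
      calc R.Bat [] (some y) * R.Bat [false] (some z) * R.Bat [true] (some z)
          = R.Bat [false] (some y) * R.Bat [true] (some y) *
              (F * (R.Bat [false, false] (some z) * R.Bat [false, true] (some z) *
              (R.Bat [true, false] (some z) * R.Bat [true, true] (some z)))) * (F0 * F1) := by
            rw [hR, mul_assoc _ (R.Bat [false] (some z)), quad z]; group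
        _ = R.Bat [false] (some y) * (R.Bat [false, false] (some z) * R.Bat [false, true] (some z)) *
              (R.Bat [true] (some y) * (R.Bat [true, false] (some z) * R.Bat [true, true] (some z))) *
              (F * F0 * F1) := by
            rw [hswap, ← cA.mul_mul_mul_comm]; group
        _ = R.Bat [false] (some z) *
              (R.Bat [false, false] (some y) * R.Bat [false, true] (some y) * F0) *
              (R.Bat [true] (some z) *
              (R.Bat [true, false] (some y) * R.Bat [true, true] (some y) * F1)) *
              (F * F0 * F1) := by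
            rw [← mul_assoc (R.Bat [false] (some y)), hC false,
              ← mul_assoc (R.Bat [true] (some y)), hC true, ← hF0, ← hF1]
            group
        _ = R.Bat [false] (some z) * R.Bat [true] (some z) *
              (R.Bat [false, false] (some y) * R.Bat [false, true] (some y) *
              (R.Bat [true, false] (some y) * R.Bat [true, true] (some y))) *
              (F0 * F1 * (F * F0 * F1)) := by
            have c3 : Commute F0 (R.Bat [true, false] (some y) * R.Bat [true, true] (some y)) :=
              (cf2 false true false _ (by decide)).mul_right (cf2 false true true _ (by decide))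
            rw [cB.mul_mul_mul_comm]
            calc _ = R.Bat [false] (some z) * R.Bat [true] (some z) *
                  (R.Bat [false, false] (some y) * R.Bat [false, true] (some y) *
                  (F0 * (R.Bat [true, false] (some y) * R.Bat [true, true] (some y)))) * F1 *
                  (F * F0 * F1) := by group
              _ = _ := by rw [c3.eq]; group
        _ = R.Bat [] (some z) * R.Bat [false] (some y) * R.Bat [true] (some y) *
              R.ιV (p.flipAt []) := by
            rw [hR z, mul_assoc _ (R.Bat [false] (some y)), quad y,
              show R.ιV (p.flipAt []) = F by simp [hF, Param.flipAt]]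
            have hFF : F * F = 1 := by
              rw [hF, ← map_mul, show p.flipR * p.flipR = 1 from Subtype.ext
                (V_ext_quarters fun c₁ c₂ c₃ x => by
                  have e := fun c d => (p.flipR_maps c d).extend [c₃] x
                  simp only [List.cons_append, List.nil_append] at e
                  rw [Subgroup.coe_mul, Equiv.Perm.mul_apply, e, e]; rfl), map_one]
            have e : F0 * F1 * (F * F0 * F1) = F * (F0 * F1 * F) := by
              calc _ = F0 * F1 * F * F0 * F1 * (F * F) := by rw [hFF]; group
                _ = F0 * F1 * F * F0 * F1 * F * F := by group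
                _ = _ := by rw [hV]; group
            rw [e]
            calc _ = R.Bat [false] (some z) * R.Bat [true] (some z) *
                  (R.Bat [false, false] (some y) * R.Bat [false, true] (some y) *
                  (R.Bat [true, false] (some y) * R.Bat [true, true] (some y)) * F) *
                  (F0 * F1 * F) := by group
              _ = _ := by rw [← hswap]; group

theorem ev_lam (u : List Bool) (l : p.L) (x : Pt Y) :
    R.ev (R.Lam u l) (pre u x) = pre u (twist (l : Equiv.Perm Y) x) := by
  by_cases hu : u = []
  · subst hu
    have hx : x = pre [(split none x).1] (split none x).2 := by rw [pre_cons, pre_nil, cons_split]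
    rw [pre_nil, pre_nil, R.lam_split [], map_mul, Equiv.Perm.mul_apply, R.lam_ne (by simp),
      R.lam_ne (by simp), hx, twist_pre]
    simp only [List.nil_append]
    cases (split none x).1
    · rw [R.toBase.ev_place_fix (u := [true]) (w := [false]) (inc_halves []).symm
          (R.toBase.ιL_mem l) _,
        R.toBase.ev_place (List.cons_ne_nil _ _) _ (R.ev_L l _)]
    · rw [R.toBase.ev_place (List.cons_ne_nil _ _) _ (R.ev_L l _),
        R.toBase.ev_place_fix (u := [false]) (w := [true]) (inc_halves [])
          (R.toBase.ιL_mem l) _]
  · rw [R.lam_ne hu]; exact R.toBase.ev_place hu _ (R.ev_L l x)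

theorem ev_bC (y : Y) (c : Bool) (x : Pt Y) :
    R.ev (R.bY y) (pre [false, c] x) = pre [false] (cons (some y) c x) := by
  have hs : (lTo (p := p) y : Equiv.Perm Y) p.y₀ = y := (p.exists_trans y).choose_spec
  rw [bY, map_mul, map_mul, map_inv, Equiv.Perm.mul_apply, Equiv.Perm.mul_apply]
  have h1 : (R.ev (R.ιL (lTo y)))⁻¹ (pre [false, c] x) =
      pre [false, c] (twist (lTo (p := p) y : Equiv.Perm Y)⁻¹ x) := by
    rw [Equiv.Perm.inv_eq_iff_eq]
    show pre [false, c] x = R.ev _ (pre [false] (pre [c] _))
    rw [R.ev_L, twist_pre, twist_inv_right]; rfl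
  rw [h1, R.ev_b, R.ev_L, twist_cons, lft_some, hs, twist_inv_right]

theorem ev_bat (u : List Bool) (a : Co Y) (c : Bool) (x : Pt Y) :
    R.ev (R.Bat u a) (pre (u ++ [c]) x) = pre u (cons a c x) := by
  cases a with
  | none => rw [R.bat_none, map_one, pre_append]; rfl
  | some y =>
    by_cases hu : u = []
    · subst hu
      have hx : x = pre [(split none x).1] (split none x).2 := by
        rw [pre_cons, pre_nil, cons_split]
      rw [R.bat_split [], map_mul, map_mul, R.toBase.ev_V, Equiv.Perm.mul_apply,
        Equiv.Perm.mul_apply, hx]
      simp only [List.nil_append, pre_nil]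
      rw [show pre [c] (pre [(split none x).1] (split none x).2) =
        pre ([] ++ [c, (split none x).1]) (split none x).2 from rfl, p.flipAt_maps [] c _,
        R.bat_ne (by simp), R.bat_ne (by simp)]
      simp only [bC, List.nil_append]
      cases (split none x).1
      · have e := (R.toBase.ev_place_fix (u := [true]) (w := [false]) (inc_halves []).symm
          (R.bY_mem y)).extend [c] (split none x).2
        simp only [List.cons_append, List.nil_append] at e
        rw [e]
        refine (R.toBase.ev_place (List.cons_ne_nil _ _) _ (R.ev_bC y c _)).trans ?_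
        exact cons_comm (by simp) _ _ _
      · have e := R.toBase.ev_place (u := [true]) (x := pre [c] (split none x).2)
          (List.cons_ne_nil _ _) _ (R.ev_bC y c (split none x).2)
        rw [show pre [true, c] (split none x).2 = pre [true] (pre [c] (split none x).2) from rfl]
        rw [e, R.toBase.ev_place_fix (u := [false]) (w := [true]) (inc_halves []) (R.bY_mem y) _]
        exact cons_comm (by simp) _ _ _
    · rw [R.bat_ne hu, pre_append]
      exact R.toBase.ev_place hu _ (R.ev_bC y c x)

end Rels

end Vale.Agent.P193.Twisted
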