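import Vale.Agent.P193.Full.Twisted.Moves
import Mathlib.Algebra.BigOperators.Group.List.Basic
import Mathlib.Algebra.BigOperators.Group.List.Lemmas
import Mathlib.Data.List.Perm.Lattice
import Mathlib.Algebra.Group.Subgroup.Ker

/-! Tables evaluate into any group with the relations, so such a group is the twisted group
(P193). -/

namespace Vale.Agent.P193.Twisted

variable {Y : Type} [DecidableEq Y]

namespace Tree

omit [DecidableEq Y] in
theorem relabel_addr (l : Equiv.Perm Y) : ∀ (T : Tree Y) (i : T.Leaf),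
    (T.relabel l).addr (T.relabelEquiv l i) = T.addr i
  | leaf, _ => rfl
  | node _ A B, Sum.inl i => congrArg (List.cons false) (A.relabel_addr l i)
  | node _ A B, Sum.inr i => congrArg (List.cons true) (B.relabel_addr l i)

omit [DecidableEq Y] in
theorem graft_addr : ∀ (T : Tree Y) (f : T.Leaf → Tree Y) (k : (T.graft f).Leaf),
    (T.graft f).addr k = T.addr (T.graftEquiv f k).1 ++
      (f (T.graftEquiv f k).1).addr (T.graftEquiv f k).2
  | leaf, _, _ => rfl
  | node _ l r, f, Sum.inl k => congrArg (List.cons false) (l.graft_addr _ k)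
  | node _ l r, f, Sum.inr k => congrArg (List.cons true) (r.graft_addr _ k)

end Tree

namespace Rels

variable {p : Param Y} {P : Type} [Group P] (R : Rels p P)

/-- The elements living under the prefix `u`. -/
def Sup (u : List Bool) : Subgroup P :=
  Subgroup.closure {x | (∃ s a, x = R.Bat (u ++ s) a) ∨ ∃ s l, x = R.Lam (u ++ s) l}

theorem bat_mem (u s : List Bool) (a : Co Y) : R.Bat (u ++ s) a ∈ R.Sup u :=
  Subgroup.subset_closure (Or.inl ⟨s, a, rfl⟩)

theorem lam_mem (u : List Bool) (l : p.L) : R.Lam u l ∈ R.Sup u :=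
  Subgroup.subset_closure (Or.inr ⟨[], l, by rw [List.append_nil]⟩)

theorem sup_mono (u s : List Bool) : R.Sup (u ++ s) ≤ R.Sup u := by
  refine (Subgroup.closure_le _).2 ?_
  rintro x (⟨t, a, rfl⟩ | ⟨t, l, rfl⟩)
  · exact Subgroup.subset_closure (Or.inl ⟨s ++ t, a, by rw [List.append_assoc]⟩)
  · exact Subgroup.subset_closure (Or.inr ⟨s ++ t, l, by rw [List.append_assoc]⟩)

theorem gen_place {u w : List Bool} (h : Inc u w) {x : P}
    (hx : (∃ s a, x = R.Bat (u ++ s) a) ∨ ∃ s l, x = R.Lam (u ++ s) l) :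
    ∃ s, ∃ q ∈ R.toBase.Q, x = R.toBase.place (u ++ s) q := by
  have hne : ∀ s, u ++ s ≠ [] := fun s e => h.1 (by rw [(List.append_eq_nil_iff.1 e).1]; exact List.nil_prefix)
  rcases hx with ⟨s, a, rfl⟩ | ⟨s, l, rfl⟩
  · exact ⟨s, _, R.bC_mem a, R.bat_ne (hne s) a⟩
  · exact ⟨s, _, R.toBase.ιL_mem l, R.lam_ne (hne s) l⟩

theorem sup_commute {u w : List Bool} (h : Inc u w) {x y : P} (hx : x ∈ R.Sup u)
    (hy : y ∈ R.Sup w) : Commute x y := by
  induction hx using Subgroup.closure_induction with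
  | mem x hx =>
    induction hy using Subgroup.closure_induction with
    | mem y hy =>
      obtain ⟨s, q, hq, rfl⟩ := R.gen_place h hx
      obtain ⟨t, q', hq', rfl⟩ := R.gen_place h.symm hy
      exact R.commute_place (h.extend s t) hq hq'
    | one => exact Commute.one_right _
    | mul y z _ _ h₁ h₂ => exact h₁.mul_right h₂
    | inv y _ h₁ => exact h₁.inv_right
  | one => exact Commute.one_left _
  | mul x z _ _ h₁ h₂ => exact h₁.mul_left h₂
  | inv x _ h₁ => exact h₁.inv_left

omit [DecidableEq Y] in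
theorem snoc (u : List Bool) (c : Bool) (s : List Bool) : u ++ c :: s = u ++ [c] ++ s := by simp

theorem sup_fix {u w : List Bool} (h : Inc u w) {x : P} (hx : x ∈ R.Sup u) :
    Maps (R.ev x) w w := by
  induction hx using Subgroup.closure_induction with
  | mem x hx =>
    obtain ⟨s, q, hq, rfl⟩ := R.gen_place h hx
    exact R.toBase.ev_place_fix (by simpa using h.extend s []) hq
  | one => rw [map_one]; exact Maps.one _
  | mul x y _ _ hx hy => rw [map_mul]; exact hy.mul hx
  | inv x _ hx => rw [map_inv]; exact hx.inv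

/-- The element of a tree at the prefix `u`. -/
noncomputable def Th : Tree Y → List Bool → P
  | Tree.leaf, _ => 1
  | Tree.node a l r, u => R.Bat u a * Th l (u ++ [false]) * Th r (u ++ [true])

theorem th_mem : ∀ (T : Tree Y) (u : List Bool), R.Th T u ∈ R.Sup u
  | Tree.leaf, _ => Subgroup.one_mem _
  | Tree.node a l r, u => Subgroup.mul_mem _ (Subgroup.mul_mem _
      (by simpa using R.bat_mem u [] a) (R.sup_mono u _ (th_mem l _)))
      (R.sup_mono u _ (th_mem r _))

theorem ev_th : ∀ (T : Tree Y) (u : List Bool) (i : T.Leaf) (x : Pt Y),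
    R.ev (R.Th T u) (pre (u ++ T.addr i) x) = pre u (T.point i x)
  | Tree.leaf, u, _, x => by
    rw [Th, map_one, Tree.addr, List.append_nil]; rfl
  | Tree.node a l r, u, Sum.inl i, x => by
    have e := (R.sup_fix (inc_halves u).symm (R.th_mem r _)).extend (l.addr i) x
    rw [Th, map_mul, map_mul, Equiv.Perm.mul_apply, Equiv.Perm.mul_apply, Tree.addr,
      snoc u false (l.addr i), e, ev_th l, R.ev_bat]
    rfl
  | Tree.node a l r, u, Sum.inr i, x => by
    rw [Th, map_mul, map_mul, Equiv.Perm.mul_apply, Equiv.Perm.mul_apply, Tree.addr,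
      snoc u true (r.addr i), ev_th r,
      R.sup_fix (inc_halves u) (R.th_mem l _), R.ev_bat]
    rfl

theorem move_fix_commute {v : p.V} {w : List Bool} (hv : Maps (v : Equiv.Perm (Pt Y)) w w) {x : P}
    (hx : x ∈ R.Sup w) : Commute (R.ιV v) x := by
  refine (Subgroup.mem_centralizer_singleton_iff.1
    ((Subgroup.closure_le (K := Subgroup.centralizer {R.ιV v})).2 ?_ hx)).symm
  rintro y (⟨s, a, rfl⟩ | ⟨s, l, rfl⟩)
  · refine Subgroup.mem_centralizer_singleton_iff.2 ?_
    exact (mul_inv_eq_iff_eq_mul.1 (R.bat_move (hv.extend s) a)).symm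
  · refine Subgroup.mem_centralizer_singleton_iff.2 ?_
    exact (mul_inv_eq_iff_eq_mul.1 (R.lam_move (hv.extend s) l)).symm

theorem th_move {v : p.V} : ∀ (T : Tree Y) {u w : List Bool},
    Maps (v : Equiv.Perm (Pt Y)) u w → R.ιV v * R.Th T u * (R.ιV v)⁻¹ = R.Th T w
  | Tree.leaf, _, _, _ => by simp [Th]
  | Tree.node a l r, u, w, h => by
    rw [Th, Th, ← th_move l (h.extend [false]), ← th_move r (h.extend [true]),
      ← R.bat_move h a]
    group

/-- The ordered product over the leaves. -/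
noncomputable def prodT (T : Tree Y) (u : List Bool) (F : T.Leaf → List Bool → P) : P :=
  (T.leaves.map fun i => F i (u ++ T.addr i)).prod

theorem prodT_leaf (u : List Bool) (F : (Tree.leaf : Tree Y).Leaf → List Bool → P) :
    prodT Tree.leaf u F = F () u := by
  show (List.map (fun i : Unit => F i (u ++ [])) [()]).prod = F () u
  rw [List.map_singleton, List.prod_singleton, List.append_nil]

theorem prodT_node (a : Co Y) (l r : Tree Y) (u : List Bool)
    (F : (Tree.node a l r).Leaf → List Bool → P) :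
    prodT (Tree.node a l r) u F = prodT l (u ++ [false]) (fun i => F (Sum.inl i)) *
      prodT r (u ++ [true]) (fun i => F (Sum.inr i)) := by
  show ((l.leaves.map Sum.inl ++ r.leaves.map Sum.inr).map
    fun i : l.Leaf ⊕ r.Leaf => F i (u ++ (Tree.node a l r).addr i)).prod = _
  rw [List.map_append, List.prod_append, List.map_map, List.map_map]
  unfold prodT
  congr 2 <;> exact List.map_congr_left fun i _ => congrArg _ (snoc u _ _)

theorem prodT_congr (T : Tree Y) (u : List Bool) {F G : T.Leaf → List Bool → P}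
    (h : ∀ i w, F i w = G i w) : prodT T u F = prodT T u G := by
  rw [show F = G from funext fun i => funext (h i)]

theorem prodT_mem : ∀ (T : Tree Y) (u : List Bool) (F : T.Leaf → List Bool → P),
    (∀ i w, F i w ∈ R.Sup w) → prodT T u F ∈ R.Sup u
  | Tree.leaf, u, F, h => by rw [prodT_leaf]; exact h () u
  | Tree.node a l r, u, F, h => by
    rw [prodT_node]
    exact Subgroup.mul_mem _ (R.sup_mono u _ (prodT_mem l _ _ fun i => h (Sum.inl i)))
      (R.sup_mono u _ (prodT_mem r _ _ fun i => h (Sum.inr i)))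

theorem prodT_mul : ∀ (T : Tree Y) (u : List Bool) (F G : T.Leaf → List Bool → P),
    (∀ i w, F i w ∈ R.Sup w) → (∀ i w, G i w ∈ R.Sup w) →
      prodT T u F * prodT T u G = prodT T u fun i w => F i w * G i w
  | Tree.leaf, u, F, G, _, _ => by simp [prodT_leaf]
  | Tree.node a l r, u, F, G, hF, hG => by
    rw [prodT_node, prodT_node, prodT_node,
      ← prodT_mul l _ _ _ (fun i => hF (Sum.inl i)) (fun i => hG (Sum.inl i)),
      ← prodT_mul r _ _ _ (fun i => hF (Sum.inr i)) (fun i => hG (Sum.inr i))]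
    exact (R.sup_commute (inc_halves u).symm (R.prodT_mem r _ _ fun i => hF (Sum.inr i))
      (R.prodT_mem l _ _ fun i => hG (Sum.inl i))).mul_mul_mul_comm _ _

theorem prodT_one : ∀ (T : Tree Y) (u : List Bool), prodT T u (fun _ _ => (1 : P)) = 1
  | Tree.leaf, u => prodT_leaf u _
  | Tree.node a l r, u => by rw [prodT_node, prodT_one l, prodT_one r, mul_one]

theorem prodT_inv (T : Tree Y) (u : List Bool) (F : T.Leaf → List Bool → P)
    (hF : ∀ i w, F i w ∈ R.Sup w) :
    (prodT T u F)⁻¹ = prodT T u fun i w => (F i w)⁻¹ := by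
  refine inv_eq_of_mul_eq_one_right ?_
  rw [R.prodT_mul T u _ _ hF fun i w => Subgroup.inv_mem _ (hF i w)]
  simp [prodT_one]

theorem prodT_graft : ∀ (T : Tree Y) (f : T.Leaf → Tree Y) (u : List Bool)
    (H : (T.graft f).Leaf → List Bool → P),
    prodT (T.graft f) u H =
      prodT T u fun i w => prodT (f i) w fun j => H ((T.graftEquiv f).symm ⟨i, j⟩)
  | Tree.leaf, f, u, H => by rw [prodT_leaf]; rfl
  | Tree.node a l r, f, u, H => by
    rw [prodT_node]
    refine (prodT_node a _ _ u H).trans ?_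
    rw [prodT_graft l, prodT_graft r]
    rfl

theorem lam_prodT : ∀ (T : Tree Y) (u : List Bool) (l : p.L),
    prodT T u (fun _ w => R.Lam w l) = R.Lam u l
  | Tree.leaf, u, l => prodT_leaf u _
  | Tree.node a A B, u, l => by
    rw [prodT_node, lam_prodT A, lam_prodT B, ← R.lam_split]

theorem prodT_move {v : p.V} {A B : Tree Y} (σ : A.Leaf ≃ B.Leaf) {u w : List Bool}
    (hv : ∀ i, Maps (v : Equiv.Perm (Pt Y)) (u ++ A.addr i) (w ++ B.addr (σ i)))
    {F : A.Leaf → List Bool → P} {G : B.Leaf → List Bool → P}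
    (hG : ∀ j z, G j z ∈ R.Sup z)
    (hFG : ∀ i z z', Maps (v : Equiv.Perm (Pt Y)) z z' →
      R.ιV v * F i z * (R.ιV v)⁻¹ = G (σ i) z') :
    R.ιV v * prodT A u F * (R.ιV v)⁻¹ = prodT B w G := by
  have h1 : R.ιV v * prodT A u F * (R.ιV v)⁻¹ =
      ((A.leaves.map σ).map fun j => G j (w ++ B.addr j)).prod := by
    rw [← MulAut.conj_apply, prodT, map_list_prod, List.map_map, List.map_map]
    exact congrArg List.prod (List.map_congr_left fun i _ => hFG i _ _ (hv i))
  rw [h1, prodT]
  refine List.Perm.prod_eq' (List.Perm.map _ ((List.perm_ext_iff_of_nodup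
    (A.nodup_leaves.map σ.injective) B.nodup_leaves).2 fun j => ⟨fun _ => B.mem_leaves j,
      fun _ => List.mem_map.2 ⟨σ.symm j, A.mem_leaves _, σ.apply_symm_apply j⟩⟩)) ?_
  rw [List.pairwise_map]
  refine (A.nodup_leaves.map σ.injective).imp fun {i j} hij => ?_
  exact R.sup_commute (inc_append w (B.addr_inc hij)) (hG _ _) (hG _ _)

theorem th_graft : ∀ (T : Tree Y) (f : T.Leaf → Tree Y) (u : List Bool),
    R.Th (T.graft f) u = R.Th T u * prodT T u (fun i w => R.Th (f i) w)
  | Tree.leaf, f, u => by rw [prodT_leaf, Th, one_mul]; rfl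
  | Tree.node a l r, f, u => by
    rw [prodT_node, Tree.graft, Th, Th, th_graft l, th_graft r]
    have c := (R.sup_commute (inc_halves u)
      (R.prodT_mem l _ (fun i w => R.Th (f (Sum.inl i)) w) fun i w => R.th_mem _ w)
      (R.th_mem r _)).eq
    calc _ = R.Bat u a * R.Th l (u ++ [false]) *
          (prodT l (u ++ [false]) (fun i w => R.Th (f (Sum.inl i)) w) * R.Th r (u ++ [true])) *
          prodT r (u ++ [true]) (fun i w => R.Th (f (Sum.inr i)) w) := by group
      _ = _ := by rw [c]; group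

theorem lam_th : ∀ (T : Tree Y) (u : List Bool) (l : p.L),
    R.Lam u l * R.Th T u = R.Th (T.relabel (l : Equiv.Perm Y)) u * R.Lam u l
  | Tree.leaf, u, l => by simp [Th, Tree.relabel]
  | Tree.node a A B, u, l => by
    rw [Tree.relabel, Th, Th, ← mul_assoc, ← mul_assoc, R.lam_bat, mul_assoc _ (R.Lam u l),
      mul_assoc _ (R.Lam u l * _)]
    have c₁ := R.sup_commute (inc_halves u).symm (R.lam_mem _ l) (R.th_mem A (u ++ [false]))
    have c₂ := R.sup_commute (inc_halves u) (R.lam_mem _ l)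
      (R.th_mem (B.relabel (l : Equiv.Perm Y)) (u ++ [true]))
    rw [R.lam_split u l, mul_assoc _ (R.Th A (u ++ [false])), c₁.mul_mul_mul_comm, lam_th A,
      lam_th B, c₂.mul_mul_mul_comm]
    group

theorem th_cube {S T : Tree Y} (h : Tree.Cube S T) :
    ∀ u, ∃ v : p.V, R.Th S u = R.Th T u * R.ιV v := by
  induction h with
  | refl T => exact fun u => ⟨1, by simp⟩
  | symm _ ih =>
      intro u
      obtain ⟨v, hv⟩ := ih u
      exact ⟨v⁻¹, by rw [hv, map_inv]; group⟩
  | trans _ _ ih ih' =>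
      intro u
      obtain ⟨v, hv⟩ := ih u
      obtain ⟨v', hv'⟩ := ih' u
      exact ⟨v' * v, by rw [hv, hv', map_mul]; group⟩
  | @congr a S S' T T' _ _ ih ih' =>
    intro u
    obtain ⟨v, hv⟩ := ih (u ++ [false])
    obtain ⟨v', hv'⟩ := ih' (u ++ [true])
    have hfix : Maps (v : Equiv.Perm (Pt Y)) (u ++ [true]) (u ++ [true]) := by
      have e : R.ιV v = (R.Th S' (u ++ [false]))⁻¹ * R.Th S (u ++ [false]) := by rw [hv]; group
      rw [← R.toBase.ev_V v, e]
      exact R.sup_fix (inc_halves u)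
        (Subgroup.mul_mem _ (Subgroup.inv_mem _ (R.th_mem _ _)) (R.th_mem _ _))
    refine ⟨v * v', ?_⟩
    rw [Th, Th, hv, hv', map_mul]
    have c := (R.move_fix_commute hfix (R.th_mem T' _)).eq
    calc _ = R.Bat u a * R.Th S' (u ++ [false]) * (R.ιV v * R.Th T' (u ++ [true])) * R.ιV v' := by
          group
      _ = _ := by rw [c]; group
  | @swap a b hab A B C D =>
    intro u
    refine ⟨p.flipAt u, ?_⟩
    simp only [Th, List.append_assoc, List.cons_append, List.nil_append]
    set F := R.ιV (p.flipAt u)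
    set tA := R.Th A (u ++ [false, false])
    set tB := R.Th B (u ++ [false, true])
    set tC := R.Th C (u ++ [true, false])
    set tD := R.Th D (u ++ [true, true])
    set tB' := R.Th B (u ++ [true, false])
    set tC' := R.Th C (u ++ [false, true])
    have cm : ∀ {c c' : Bool} {s t : List Bool} {x y : P}, c ≠ c' →
        x ∈ R.Sup (u ++ c :: s) → y ∈ R.Sup (u ++ c' :: t) → Commute x y :=
      fun {c c' s t x y} hc hx hy => R.sup_commute
        (inc_append u (by constructor <;> simp [List.cons_prefix_cons, hc, Ne.symm hc])) hx hy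
    have c₀ : Commute (R.Bat (u ++ [true]) b) (tA * tB) :=
      (cm (c := true) (c' := false) (s := []) (by decide) (by simpa using R.bat_mem (u ++ [true]) [] b)
        (R.th_mem A _)).mul_right
      (cm (c := true) (c' := false) (s := []) (by decide) (by simpa using R.bat_mem (u ++ [true]) [] b) (R.th_mem B _))
    have hF : F * (tA * tB * (tC * tD)) * F⁻¹ = tA * tB' * (tC' * tD) := by
      rw [← MulAut.conj_apply]
      simp only [map_mul, MulAut.conj_apply, F, tA, tB, tC, tD, tB', tC',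
        R.th_move _ (p.flipAt_maps u _ _)]
    have c₁ : Commute tB' tC' := cm (by decide) (R.th_mem B _) (R.th_mem C _)
    have c₂ : Commute (R.Bat (u ++ [true]) a) (tA * tC') :=
      (cm (c := true) (c' := false) (s := []) (by decide) (by simpa using R.bat_mem (u ++ [true]) [] a)
        (R.th_mem A _)).mul_right
      (cm (c := true) (c' := false) (s := []) (by decide) (by simpa using R.bat_mem (u ++ [true]) [] a) (R.th_mem C _))
    calc _ = R.Bat u a * R.Bat (u ++ [false]) b * (tA * tB * R.Bat (u ++ [true]) b) * (tC * tD) := by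
          group
      _ = R.Bat u a * R.Bat (u ++ [false]) b * R.Bat (u ++ [true]) b * (tA * tB * (tC * tD)) := by
          rw [← c₀.eq]; group
      _ = R.Bat u b * R.Bat (u ++ [false]) a * R.Bat (u ++ [true]) a *
            (F * (tA * tB * (tC * tD)) * F⁻¹) * F := by
          rw [R.bat_cube' hab]; simp only [F]; group
      _ = R.Bat u b * R.Bat (u ++ [false]) a * (R.Bat (u ++ [true]) a * (tA * tC')) *
            (tB' * tD) * F := by
          rw [hF, c₁.mul_mul_mul_comm]; group
      _ = _ := by rw [c₂.eq]; group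

/-- The element of a table. -/
noncomputable def Phi (t : Table p.L) : P :=
  R.Th t.cod [] * R.ιV ⟨t.dom.code t.cod t.σ, p.code.code_mem _ _ _⟩ *
    prodT t.dom [] (fun i w => R.Lam w (t.lab i)) * (R.Th t.dom [])⁻¹

theorem code_eq {A B : Tree Y} {σ : A.Leaf ≃ B.Leaf} {g : Equiv.Perm (Pt Y)}
    (h : ∀ i, Maps g (A.addr i) (B.addr (σ i))) : A.code B σ = g :=
  A.ext_addr fun i x => (A.code_maps B σ i x).trans (h i x).symm

theorem ev_prodT : ∀ (T : Tree Y) (u : List Bool) (lab : T.Leaf → p.L) (i : T.Leaf) (x : Pt Y),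
    R.ev (prodT T u fun i w => R.Lam w (lab i)) (pre (u ++ T.addr i) x) =
      pre (u ++ T.addr i) (twist (lab i : Equiv.Perm Y) x)
  | Tree.leaf, u, lab, i, x => by
    rw [prodT_leaf, Tree.addr, List.append_nil, R.ev_lam]; rfl
  | Tree.node a l r, u, lab, Sum.inl i, x => by
    have e := (R.sup_fix (inc_halves u).symm
      (R.prodT_mem r (u ++ [true]) (fun i w => R.Lam w (lab (Sum.inr i)))
        fun i w => R.lam_mem w _)).extend (l.addr i) x
    rw [prodT_node, map_mul, Equiv.Perm.mul_apply, Tree.addr,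
      snoc u false (l.addr i), e, ev_prodT l]
  | Tree.node a l r, u, lab, Sum.inr i, x => by
    have e := (R.sup_fix (inc_halves u)
      (R.prodT_mem l (u ++ [false]) (fun i w => R.Lam w (lab (Sum.inl i)))
        fun i w => R.lam_mem w _)).extend (r.addr i)
    rw [prodT_node, map_mul, Equiv.Perm.mul_apply, Tree.addr,
      snoc u true (r.addr i), ev_prodT r, e]

theorem ev_phi (t : Table p.L) : R.ev (R.Phi t) = t.perm := by
  refine Table.perm_unique t _ fun i x => ?_
  have h1 : (R.ev (R.Th t.dom []))⁻¹ (t.dom.point i x) = pre (t.dom.addr i) x := by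
    rw [Equiv.Perm.inv_eq_iff_eq]
    simpa using (R.ev_th t.dom [] i x).symm
  rw [Phi, map_mul, map_mul, map_mul, map_inv, Equiv.Perm.mul_apply, Equiv.Perm.mul_apply,
    Equiv.Perm.mul_apply, h1]
  have h2 := R.ev_prodT t.dom [] t.lab i x
  simp only [List.nil_append] at h2
  rw [h2, R.toBase.ev_V]
  rw [Tree.code_maps]
  simpa using R.ev_th t.cod [] (t.σ i) (twist (t.lab i : Equiv.Perm Y) x)

theorem phi_expand (t : Table p.L) (f : t.dom.Leaf → Tree Y) :
    R.Phi (t.expand f) = R.Phi t := by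
  obtain ⟨D, C, σ, lab⟩ := t
  set g := fun j => (f (σ.symm j)).relabel (lab (σ.symm j) : Equiv.Perm Y)
  set v : p.V := ⟨D.code C σ, p.code.code_mem _ _ _⟩
  have hv : ∀ i, Maps (v : Equiv.Perm (Pt Y)) ([] ++ D.addr i) ([] ++ C.addr (σ i)) :=
    D.code_maps C σ
  have hcode : (((⟨D, C, σ, lab⟩ : Table p.L).expand f).dom.code
      ((⟨D, C, σ, lab⟩ : Table p.L).expand f).cod ((⟨D, C, σ, lab⟩ : Table p.L).expand f).σ) =
        D.code C σ := by
    unfold Table.expand
    refine code_eq fun k => ?_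
    rw [Tree.graft_addr, Tree.graft_addr]
    simp only [Equiv.trans_apply]
    generalize D.graftEquiv f k = q
    obtain ⟨i, j⟩ := q
    obtain ⟨i, rfl⟩ := σ.symm.surjective i
    rw [show (Equiv.sigmaCongrRight fun i => (f i).relabelEquiv (lab i : Equiv.Perm Y))
      ⟨σ.symm i, j⟩ = ⟨σ.symm i, (f _).relabelEquiv _ j⟩ from rfl, sigmaShift_apply σ]
    generalize hq : (C.graftEquiv fun j => (f (σ.symm j)).relabel _)
      ((C.graftEquiv fun j => (f (σ.symm j)).relabel _).symm _) = q
    rw [Equiv.apply_symm_apply] at hq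
    subst hq
    rw [Tree.relabel_addr]
    exact ((D.code_maps C σ (σ.symm i)).extend _).mul (g := 1) (by
      rw [Equiv.apply_symm_apply]; exact Maps.one _) |> fun h => by simpa using h
  have hlam : prodT (D.graft f) [] (fun k w => R.Lam w (lab (D.graftEquiv f k).1)) =
      prodT D [] (fun i w => R.Lam w (lab i)) := by
    rw [prodT_graft]
    refine prodT_congr _ _ fun i w => ?_
    simp only [Equiv.apply_symm_apply, lam_prodT]
  have hmove : R.ιV v * prodT D [] (fun i w => R.Th ((f i).relabel (lab i : Equiv.Perm Y)) w) *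
      (R.ιV v)⁻¹ = prodT C [] (fun j w => R.Th (g j) w) :=
    R.prodT_move σ hv (fun j z => R.th_mem _ z) fun i z z' h => by
      rw [R.th_move _ h]; simp [g]
  have hswap : prodT D [] (fun i w => R.Th ((f i).relabel (lab i : Equiv.Perm Y)) w) *
      prodT D [] (fun i w => R.Lam w (lab i)) =
      prodT D [] (fun i w => R.Lam w (lab i)) * prodT D [] (fun i w => R.Th (f i) w) := by
    rw [R.prodT_mul D [] _ _ (fun i w => R.th_mem _ w) (fun i w => R.lam_mem w _),
      R.prodT_mul D [] _ _ (fun i w => R.lam_mem w _) (fun i w => R.th_mem _ w)]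
    exact prodT_congr _ _ fun i w => (R.lam_th _ w _).symm
  rw [Phi, Phi, show (⟨_, p.code.code_mem _ _ _⟩ : p.V) = v from Subtype.ext hcode]
  dsimp only [Table.expand]
  rw [R.th_graft D f, R.th_graft C g, hlam, ← hmove]
  simp only [v]
  calc _ = R.Th C [] * R.ιV v *
        (prodT D [] (fun i w => R.Th ((f i).relabel (lab i : Equiv.Perm Y)) w) *
          prodT D [] (fun i w => R.Lam w (lab i))) *
        (prodT D [] (fun i w => R.Th (f i) w))⁻¹ * (R.Th D [])⁻¹ := by simp only [v]; group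
    _ = _ := by rw [hswap]; simp only [v]; group

theorem th_cube_maps {S T : Tree Y} (h : Tree.Cube S T) (e : S.Leaf ≃ T.Leaf)
    (he : ∀ i x, T.point (e i) x = S.point i x) :
    ∃ v : p.V, R.Th S [] = R.Th T [] * R.ιV v ∧
      ∀ i, Maps (v : Equiv.Perm (Pt Y)) (S.addr i) (T.addr (e i)) := by
  obtain ⟨v, hv⟩ := R.th_cube h []
  refine ⟨v, hv, fun i x => ?_⟩
  apply (R.ev (R.Th T [])).injective
  have h1 := R.ev_th S [] i x
  rw [hv, map_mul, Equiv.Perm.mul_apply, R.toBase.ev_V] at h1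
  have h2 := R.ev_th T [] (e i) x
  simp only [List.nil_append, pre_nil] at h1 h2
  rw [h1, h2, he]

theorem phi_retarget (t : Table p.L) (S : Tree Y) (e : S.Leaf ≃ t.dom.Leaf)
    (hc : Tree.Cube S t.dom) (he : ∀ i x, t.dom.point (e i) x = S.point i x) :
    R.Phi (t.retarget S e) = R.Phi t := by
  obtain ⟨D, C, σ, lab⟩ := t
  obtain ⟨w, hw, hm⟩ := R.th_cube_maps hc e he
  have hL : R.ιV w * prodT S [] (fun i z => R.Lam z (lab (e i))) * (R.ιV w)⁻¹ =
      prodT D [] (fun i z => R.Lam z (lab i)) :=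
    R.prodT_move e (fun i => hm i) (fun j z => R.lam_mem z _) fun i z z' h => R.lam_move h _
  set v : p.V := ⟨D.code C σ, p.code.code_mem _ _ _⟩
  have hv : (⟨_, p.code.code_mem S C (e.trans σ)⟩ : p.V) = v * w := by
    refine Subtype.ext (code_eq fun i => ?_)
    exact (hm i).mul (D.code_maps C σ (e i))
  rw [Phi, Phi]
  dsimp only [Table.retarget]
  rw [hv, hw, map_mul, ← hL]
  simp only [v]
  group

theorem exists_dom' (t : Table p.L) {S : Tree Y} (h : Tree.Refines S t.dom) :
    ∃ t' : Table p.L, t'.dom = S ∧ t'.perm = t.perm ∧ R.Phi t' = R.Phi t := by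
  obtain ⟨f, hf⟩ := Tree.exists_graft t.dom S h
  obtain ⟨e, he⟩ := hf.sameBricks
  exact ⟨(t.expand f).retarget S e, rfl,
    ((t.expand f).retarget_perm S e he).trans (t.expand_perm f),
    (R.phi_retarget (t.expand f) S e hf he).trans (R.phi_expand t f)⟩

theorem phi_eq (t t' : Table p.L) (h : t.perm = t'.perm) : R.Phi t = R.Phi t' := by
  obtain ⟨S, h₁, h₂⟩ := Tree.exists_common t.dom t'.dom
  obtain ⟨⟨_, U, σ, lab⟩, rfl, et, ft⟩ := R.exists_dom' t h₁
  obtain ⟨⟨S', U', σ', lab'⟩, hS', et', ft'⟩ := R.exists_dom' t' h₂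
  dsimp only at hS'
  subst hS'
  rw [← ft, ← ft']
  obtain ⟨rfl, hU, hp⟩ := Table.unique_range (et.trans (h.trans et'.symm))
  obtain ⟨w, hw, hm⟩ := R.th_cube_maps hU (σ.symm.trans σ') fun k x => by
    simpa using hp (σ.symm k) x
  have hv : (⟨_, p.code.code_mem S' U' σ'⟩ : p.V) =
      w * ⟨_, p.code.code_mem S' U σ⟩ := by
    refine Subtype.ext (code_eq fun i => ?_)
    refine (S'.code_maps U σ i).mul ?_
    simpa using hm (σ i)
  rw [Phi, Phi]
  dsimp only
  rw [hv, hw, map_mul]
  group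

theorem phi_comp (t₁ t₂ : Table p.L) (h : t₁.dom = t₂.dom) :
    R.Phi (t₁.comp t₂ h) = R.Phi t₂ * (R.Phi t₁)⁻¹ := by
  obtain ⟨D, C₁, σ₁, l₁⟩ := t₁
  obtain ⟨_, C₂, σ₂, l₂⟩ := t₂
  cases h
  set v₁ : p.V := ⟨D.code C₁ σ₁, p.code.code_mem _ _ _⟩
  set v₂ : p.V := ⟨D.code C₂ σ₂, p.code.code_mem _ _ _⟩
  have hv : (⟨_, p.code.code_mem C₁ C₂ (σ₁.symm.trans σ₂)⟩ : p.V) = v₂ * v₁⁻¹ := by
    refine Subtype.ext (code_eq fun j => ?_)
    have h1 := (D.code_maps C₁ σ₁ (σ₁.symm j)).inv
    rw [Equiv.apply_symm_apply] at h1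
    exact h1.mul (D.code_maps C₂ σ₂ (σ₁.symm j))
  have hL : prodT D [] (fun i z => R.Lam z (l₂ i)) *
      (prodT D [] (fun i z => R.Lam z (l₁ i)))⁻¹ =
      prodT D [] (fun i z => R.Lam z (l₂ i * (l₁ i)⁻¹)) := by
    rw [R.prodT_inv _ _ _ (fun i z => R.lam_mem z _),
      R.prodT_mul _ _ _ _ (fun i z => R.lam_mem z _)
        (fun i z => Subgroup.inv_mem _ (R.lam_mem z _))]
    refine prodT_congr _ _ fun i z => ?_
    have : R.Lam z (l₁ i)⁻¹ = (R.Lam z (l₁ i))⁻¹ :=
      eq_inv_of_mul_eq_one_left (by rw [← R.lam_mul, inv_mul_cancel, R.lam_one])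
    rw [R.lam_mul, this]
  have hM : R.ιV v₁ * prodT D [] (fun i z => R.Lam z (l₂ i * (l₁ i)⁻¹)) * (R.ιV v₁)⁻¹ =
      prodT C₁ [] (fun j z => R.Lam z (l₂ (σ₁.symm j) * (l₁ (σ₁.symm j))⁻¹)) :=
    R.prodT_move σ₁ (fun i => D.code_maps C₁ σ₁ i) (fun j z => R.lam_mem z _)
      fun i z z' h => by rw [R.lam_move h, Equiv.symm_apply_apply]
  rw [Phi, Phi, Phi]
  dsimp only [Table.comp]
  simp only [Equiv.cast_refl, Equiv.refl_trans, Equiv.refl_apply]
  rw [hv, map_mul, map_inv, ← hM, ← hL]
  simp only [v₁, v₂]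
  group

/-- The inverse of the evaluation. -/
noncomputable def psiFun (g : tableGroup p.L) : P := R.Phi g.2.choose

theorem psiFun_eq (g : tableGroup p.L) (t : Table p.L) (h : t.perm = (g : Equiv.Perm (Pt Y))) :
    R.psiFun g = R.Phi t :=
  R.phi_eq _ _ (g.2.choose_spec.trans h.symm)

theorem psiFun_div (g h : tableGroup p.L) : R.psiFun (g * h⁻¹) = R.psiFun g * (R.psiFun h)⁻¹ := by
  obtain ⟨S, h₁, h₂⟩ := Tree.exists_common g.2.choose.dom h.2.choose.dom
  obtain ⟨t, ht, et, ft⟩ := R.exists_dom' _ h₁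
  obtain ⟨s, hs, es, fs⟩ := R.exists_dom' _ h₂
  have e : (s.comp t (hs.trans ht.symm)).perm = ((g * h⁻¹ : tableGroup p.L) : Equiv.Perm (Pt Y)) := by
    rw [Table.comp_perm, et, es, g.2.choose_spec, h.2.choose_spec]; rfl
  rw [R.psiFun_eq _ _ e, R.phi_comp, ft, fs]; rfl

/-- The inverse homomorphism. -/
noncomputable def psi : tableGroup p.L →* P :=
  MonoidHom.ofMapMulInv R.psiFun fun a b => R.psiFun_div a b

theorem psi_apply (g : tableGroup p.L) (t : Table p.L)
    (h : t.perm = (g : Equiv.Perm (Pt Y))) : R.psi g = R.Phi t := R.psiFun_eq g t h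

theorem th_shape : ∀ (T : Tree Y) (u : List Bool), R.Th T.shape u = 1
  | Tree.leaf, _ => rfl
  | Tree.node a l r, u => by
    rw [Tree.shape, Th, bat_none, th_shape l, th_shape r, mul_one, mul_one]

theorem phi_V (v : p.V) : ∃ t : Table p.L, R.Phi t = R.ιV v := by
  obtain ⟨A, B, σ, h⟩ := (p.code _).1 v.2
  refine ⟨⟨A.shape, B.shape, A.shapeEquiv.symm.trans (σ.trans B.shapeEquiv), fun _ => 1⟩, ?_⟩
  have e : (⟨_, p.code.code_mem A.shape B.shape
      (A.shapeEquiv.symm.trans (σ.trans B.shapeEquiv))⟩ : p.V) = v := by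
    refine Subtype.ext (code_eq fun k => ?_)
    obtain ⟨i, rfl⟩ := A.shapeEquiv.surjective k
    simp only [Equiv.trans_apply, Equiv.symm_apply_apply, Tree.shape_addr]
    exact h i
  have h1 : prodT A.shape [] (fun _ z => R.Lam z 1) = 1 := by
    rw [R.lam_prodT, R.lam_one]
  rw [Phi]
  dsimp only
  rw [th_shape, th_shape, e, h1]
  group

theorem phi_L (l : p.L) : ∃ t : Table p.L, R.Phi t = R.ιL l := by
  let T : Tree Y := Tree.node none Tree.leaf Tree.leaf
  refine ⟨⟨T, T, Equiv.refl _, Sum.elim (fun _ => l) (fun _ => 1)⟩, ?_⟩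
  have e : (⟨_, p.code.code_mem T T (Equiv.refl _)⟩ : p.V) = 1 :=
    Subtype.ext (code_eq fun i => Maps.one _)
  rw [Phi]
  dsimp only
  rw [e, prodT_node, prodT_leaf, prodT_leaf]
  have h1 : R.Th T [] = 1 := by simp [T, Th, bat_none]
  rw [h1]
  show 1 * R.ιV 1 * (R.Lam [false] l * R.Lam [true] 1) * 1⁻¹ = _
  rw [lam_one, R.lam_ne (List.cons_ne_nil _ _), R.toBase.place_false (R.toBase.ιL_mem l), map_one]
  group

theorem phi_b : ∃ t : Table p.L, R.Phi t = R.b := by
  let T : Tree Y := Tree.node none (Tree.node none Tree.leaf Tree.leaf) Tree.leaf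
  let U : Tree Y := Tree.node none (Tree.node (some p.y₀) Tree.leaf Tree.leaf) Tree.leaf
  refine ⟨⟨T, U, Equiv.refl _, fun _ => 1⟩, ?_⟩
  have e : (⟨_, p.code.code_mem T U (Equiv.refl _)⟩ : p.V) = 1 := by
    refine Subtype.ext (code_eq ?_)
    rintro ((_ | _) | _) <;> exact Maps.one _
  rw [Phi]
  dsimp only
  rw [e, R.lam_prodT, R.lam_one]
  have h1 : R.Th T [] = 1 := by simp [T, Th, bat_none]
  have h2 : R.Th U [] = R.b := by
    simp only [U, Th, bat_none, one_mul, mul_one, List.nil_append,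
      R.bat_ne (List.cons_ne_nil false []), bC, R.bY_y₀, R.toBase.place_false R.toBase.b_mem]
  rw [h1, h2, map_one]
  group

/-- A group with the relations that is generated by the generators is the twisted group. -/
noncomputable def equiv
    (gen : Subgroup.closure (Set.range R.ιV ∪ Set.range R.ιL ∪ {R.b}) = ⊤) :
    P ≃* tableGroup p.L := by
  have hcov : ∀ x ∈ Set.range R.ιV ∪ Set.range R.ιL ∪ {R.b}, ∃ t, R.Phi t = x := by
    rintro x ((⟨v, rfl⟩ | ⟨l, rfl⟩) | rfl)
    exacts [R.phi_V v, R.phi_L l, R.phi_b]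
  have hmem : ∀ x, R.ev x ∈ tableGroup p.L := by
    intro x
    have : (⊤ : Subgroup P) ≤ (tableGroup p.L).comap R.ev := gen ▸ (Subgroup.closure_le _).2 (by
      intro y hy
      obtain ⟨t, rfl⟩ := hcov y hy
      exact ⟨t, (R.ev_phi t).symm⟩)
    exact this (Subgroup.mem_top x)
  let f : P →* tableGroup p.L := R.ev.codRestrict _ hmem
  refine MulEquiv.ofBijective f ⟨?_, ?_⟩
  · refine Function.LeftInverse.injective (g := R.psi) fun x => ?_
    have : R.psi.comp f = MonoidHom.id P := by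
      refine MonoidHom.eq_of_eqOn_dense gen fun y hy => ?_
      obtain ⟨t, rfl⟩ := hcov y hy
      exact R.psi_apply _ t (R.ev_phi t).symm
    exact DFunLike.congr_fun this x
  · rintro ⟨g, t, rfl⟩
    exact ⟨R.Phi t, Subtype.ext (R.ev_phi t)⟩

end Rels

end Vale.Agent.P193.Twisted
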