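import Vale.Agent.P193.Full.Twisted.Concrete
import Mathlib.GroupTheory.FinitelyPresentedGroup
import Mathlib.GroupTheory.GroupAction.Basic

/-! The twisted group is finitely presented: the relations of `Rels` follow from finitely many
(P193). -/

open Classical

noncomputable section

namespace Vale.Agent.P193.Twisted

theorem commute_of_gens {G : Type*} [Group G] {S T : Set G} (h : ∀ a ∈ S, ∀ b ∈ T, Commute a b)
    {x y : G} (hx : x ∈ Subgroup.closure S) (hy : y ∈ Subgroup.closure T) : Commute x y := by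
  have h1 : Subgroup.closure S ≤ Subgroup.centralizer T := by
    rw [Subgroup.closure_le]
    exact fun a ha => Subgroup.mem_centralizer_iff.2 fun b hb => (h a ha b hb).symm.eq
  have h2 : Subgroup.closure T ≤ Subgroup.centralizer {x} := by
    rw [Subgroup.closure_le]
    exact fun b hb => Subgroup.mem_centralizer_singleton_iff.2
      (Subgroup.mem_centralizer_iff.1 (h1 hx) b hb)
  exact (Subgroup.mem_centralizer_singleton_iff.1 (h2 hy)).symm

theorem exists_gens {G : Type*} [Group G] (h : Group.IsFinitelyPresented G) :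
    ∃ (n : ℕ) (g : Fin n → G), Subgroup.closure (Set.range g) = ⊤ := by
  obtain ⟨n, φ, hφ, -⟩ := h.out
  refine ⟨n, fun i => φ (FreeGroup.of i), ?_⟩
  rw [← FreeGroup.range_lift_eq_closure, MonoidHom.range_eq_top]
  rwa [show FreeGroup.lift (fun i => φ (FreeGroup.of i)) = φ from
    FreeGroup.ext_hom _ _ fun i => FreeGroup.lift_apply_of]

variable {Y : Type} [DecidableEq Y] (p : Param Y)

/-- The free product of the pieces. -/
abbrev KG : Type := Monoid.Coprod (Monoid.Coprod ↥p.V ↥p.L) (FreeGroup Unit)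

/-- The generators from `V`. -/
def iV : ↥p.V →* KG p := Monoid.Coprod.inl.comp Monoid.Coprod.inl

/-- The generators from `L`. -/
def iL : ↥p.L →* KG p := Monoid.Coprod.inl.comp Monoid.Coprod.inr

/-- The baker generator. -/
def ib : KG p := Monoid.Coprod.inr (FreeGroup.of ())

/-- Evaluation of the free product. -/
def evK : KG p →* Equiv.Perm (Pt Y) :=
  Monoid.Coprod.lift (Monoid.Coprod.lift p.V.subtype (lamHom p.L))
    (FreeGroup.lift fun _ => (bTab p.L p.y₀).perm)

theorem evK_V (v : p.V) : evK p (iV p v) = (v : Equiv.Perm (Pt Y)) := by simp [evK, iV]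

theorem evK_L (l : p.L) : evK p (iL p l) = lamHom p.L l := by simp [evK, iL]

theorem evK_b : evK p (ib p) = (bTab p.L p.y₀).perm := by simp [evK, ib]

/-- Conjugate to the prefix `u`. -/
def plK (u : List Bool) (x : KG p) : KG p := iV p (p.kTo u) * x * (iV p (p.kTo u))⁻¹

theorem evK_pl (u : List Bool) (x : KG p) :
    evK p (plK p u x) = (base₀ p).place u (evK p x) := by
  rw [plK, map_mul, map_mul, map_inv, evK_V]
  rfl

/-- The property holds under finitely many true relations. -/
def EvK (P : ∀ (G : Type) [Group G], (KG p →* G) → Prop) : Prop :=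
  ∃ R : Finset (KG p), (∀ r ∈ R, evK p r = 1) ∧
    ∀ (G : Type) [Group G] (f : KG p →* G), (∀ r ∈ R, f r = 1) → P G f

variable {p}

theorem EvK.mono {a b : ∀ (G : Type) [Group G], (KG p →* G) → Prop} (ha : EvK p a)
    (h : ∀ (G : Type) [Group G] (f : KG p →* G), a G f → b G f) : EvK p b := by
  obtain ⟨R, h1, h2⟩ := ha
  exact ⟨R, h1, fun G _ f hf => h G f (h2 G f hf)⟩

theorem EvK.and {a b : ∀ (G : Type) [Group G], (KG p →* G) → Prop} (ha : EvK p a)
    (hb : EvK p b) : EvK p fun G _ f => a G f ∧ b G f := by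
  obtain ⟨R, h1, h2⟩ := ha
  obtain ⟨R', h1', h2'⟩ := hb
  exact ⟨R ∪ R', fun r hr => (Finset.mem_union.1 hr).elim (h1 r) (h1' r),
    fun G _ f hf => ⟨h2 G f fun r hr => hf r (Finset.mem_union_left _ hr),
      h2' G f fun r hr => hf r (Finset.mem_union_right _ hr)⟩⟩

theorem EvK.all {β : Type*} [Finite β] {a : β → ∀ (G : Type) [Group G], (KG p →* G) → Prop}
    (h : ∀ x, EvK p (a x)) : EvK p fun G _ f => ∀ x, a x G f := by
  choose R h1 h2 using h
  have := Fintype.ofFinite β
  exact ⟨Finset.univ.biUnion R, fun r hr => by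
      obtain ⟨x, -, hx⟩ := Finset.mem_biUnion.1 hr
      exact h1 x r hx,
    fun G _ f hf x => h2 x G f fun r hr => hf r (Finset.mem_biUnion.2 ⟨x, Finset.mem_univ x, hr⟩)⟩

theorem EvK.rel {a b : KG p} (h : evK p a = evK p b) : EvK p fun _ _ f => f a = f b := by
  refine ⟨{a * b⁻¹}, ?_, fun G _ f hf => ?_⟩
  · intro r hr
    rw [Finset.mem_singleton.1 hr, map_mul, map_inv, h, mul_inv_cancel]
  · have := hf _ (Finset.mem_singleton_self _)
    rwa [map_mul, map_inv, mul_inv_eq_one] at this

theorem EvK.comm {a b : KG p} (h : Commute (evK p a) (evK p b)) :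
    EvK p fun _ _ f => Commute (f a) (f b) :=
  (EvK.rel (a := a * b) (b := b * a) (by rw [map_mul, map_mul, h.eq])).mono
    fun G _ f e => by rwa [map_mul, map_mul] at e

variable (p)

/-- The relations, as they are needed. -/
structure RelK {G : Type} [Group G] (f : KG p →* G) : Prop where
  fixL : ∀ v : p.V, Maps (v : Equiv.Perm (Pt Y)) [false] [false] →
    ∀ l, Commute (f (iV p v)) (f (iL p l))
  fixb : ∀ v : p.V, Maps (v : Equiv.Perm (Pt Y)) [false] [false] →
    Commute (f (iV p v)) (f (ib p))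
  stab : ∀ l : p.L, (l : Equiv.Perm Y) p.y₀ = p.y₀ → Commute (f (iL p l)) (f (ib p))
  top : ∀ q ∈ Set.range (f.comp (iL p)) ∪ {f (ib p)}, ∀ q' ∈ Set.range (f.comp (iL p)) ∪ {f (ib p)},
    Commute q (MulAut.conj (f (iV p (p.kTo [true]))) q')
  sub : ∀ q ∈ Set.range (f.comp (iL p)) ∪ {f (ib p)}, ∀ q' ∈ Set.range (f.comp (iL p)) ∪ {f (ib p)},
    Commute (MulAut.conj (f (iV p (p.kTo [false, false]))) q)
      (MulAut.conj (f (iV p (p.kTo [false, true]))) q')
  splitL : ∀ l, f (iL p l) = f (plK p [false, false] (iL p l)) * f (plK p [false, true] (iL p l))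
  splitb : f (ib p) =
    f (plK p [false, false] (ib p)) * f (plK p [false, true] (ib p)) * f (iV p p.flip₀)
  cube : ∀ l : p.L, (l : Equiv.Perm Y) p.y₀ = p.y₁ →
    f (ib p) * f (plK p [false, false] (iL p l * ib p * (iL p l)⁻¹)) *
        f (plK p [false, true] (iL p l * ib p * (iL p l)⁻¹)) =
      f (iL p l * ib p * (iL p l)⁻¹) * f (plK p [false, false] (ib p)) *
        f (plK p [false, true] (ib p)) * f (iV p p.flip₀)

variable {p} (hV : Group.IsFinitelyPresented ↥p.V) (hL : Group.IsFinitelyPresented ↥p.L)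
  (hS : (MulAction.stabilizer ↥p.L p.y₀).FG)
  (hF : ∃ S : Finset ↥p.V, (∀ v ∈ S, Maps (v : Equiv.Perm (Pt Y)) [false] [false]) ∧
    ∀ v : p.V, Maps (v : Equiv.Perm (Pt Y)) [false] [false] →
      v ∈ Subgroup.closure (S : Set ↥p.V))

include hL hS hF in
/-- Finitely many true relations give all of them. -/
theorem evK_relK : EvK p fun _ _ f => RelK p f := by
  obtain ⟨n, lg, hlg⟩ := exists_gens hL
  obtain ⟨S, hS1, hS2⟩ := hF
  obtain ⟨T, hT⟩ := hS
  let qg : Option (Fin n) → KG p := fun o => o.elim (ib p) fun i => iL p (lg i)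
  have hq : ∀ o, evK p (qg o) ∈ Set.range (base₀ p).ιL ∪ {(base₀ p).b} := by
    rintro (_ | i)
    · exact Or.inr (evK_b p)
    · exact Or.inl ⟨lg i, (evK_L p (lg i)).symm⟩
  have hT' : ∀ k ∈ T, (k : Equiv.Perm Y) p.y₀ = p.y₀ := fun k hk => by
    have : k ∈ MulAction.stabilizer ↥p.L p.y₀ := hT ▸ Subgroup.subset_closure hk
    exact this
  obtain ⟨m, hm⟩ := p.exists_trans p.y₁
  have e1 : EvK p fun _ _ f => ∀ (v : S) (o : Option (Fin n)),
      Commute (f (iV p v.1)) (f (qg o)) := by
    refine EvK.all fun v => EvK.all fun o => EvK.comm ?_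
    rw [evK_V]
    cases o with
    | none => exact (evK_b p).symm ▸ (base₀ p).r_fixb v.1 (hS1 _ v.2)
    | some i => exact (evK_L p (lg i)).symm ▸ (base₀ p).r_fixL v.1 (hS1 _ v.2) (lg i)
  have e2 : EvK p fun _ _ f => ∀ k : T, Commute (f (iL p k.1)) (f (ib p)) :=
    EvK.all fun k => EvK.comm (by
      rw [evK_L, evK_b]; exact (base₀ p).r_stab k.1 (hT' _ k.2))
  have e3 : EvK p fun _ _ f => ∀ o o' : Option (Fin n),
      Commute (f (qg o)) (f (plK p [true] (qg o'))) :=
    EvK.all fun o => EvK.all fun o' => EvK.comm (by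
      rw [evK_pl]; exact (rels₀ p).r_top _ (hq o) _ (hq o'))
  have e4 : EvK p fun _ _ f => ∀ o o' : Option (Fin n),
      Commute (f (plK p [false, false] (qg o))) (f (plK p [false, true] (qg o'))) :=
    EvK.all fun o => EvK.all fun o' => EvK.comm (by
      rw [evK_pl, evK_pl]; exact (rels₀ p).r_sub _ (hq o) _ (hq o'))
  have e5 : EvK p fun _ _ f => ∀ i, f (iL p (lg i)) =
      f (plK p [false, false] (iL p (lg i)) * plK p [false, true] (iL p (lg i))) :=
    EvK.all fun i => EvK.rel (by
      rw [map_mul, evK_pl, evK_pl, evK_L]; exact (rels₀ p).r_splitL (lg i))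
  have e6 : EvK p fun _ _ f => f (ib p) =
      f (plK p [false, false] (ib p) * plK p [false, true] (ib p) * iV p p.flip₀) :=
    EvK.rel (by
      rw [map_mul, map_mul, evK_pl, evK_pl, evK_b, evK_V]; exact (rels₀ p).r_splitb)
  have e7 : EvK p fun _ _ f =>
      f (ib p * plK p [false, false] (iL p m * ib p * (iL p m)⁻¹) *
          plK p [false, true] (iL p m * ib p * (iL p m)⁻¹)) =
        f (iL p m * ib p * (iL p m)⁻¹ * plK p [false, false] (ib p) *
          plK p [false, true] (ib p) * iV p p.flip₀) :=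
    EvK.rel (by
      have := (rels₀ p).r_cube m hm
      simp only [map_mul, map_inv, evK_pl, evK_b, evK_V, evK_L] at this ⊢
      exact this)
  refine ((((((e1.and e2).and e3).and e4).and e5).and e6).and e7).mono
    fun G _ f ⟨⟨⟨⟨⟨⟨r1, r2⟩, r3⟩, r4⟩, r5⟩, r6⟩, r7⟩ => ?_
  set Q : Set G := Set.range fun o => f (qg o) with hQ
  have hiL : ∀ l, f (iL p l) ∈ Subgroup.closure Q := by
    intro l
    have hle : Subgroup.closure (Set.range lg) ≤ (Subgroup.closure Q).comap (f.comp (iL p)) := by
      rw [Subgroup.closure_le]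
      rintro _ ⟨i, rfl⟩
      exact Subgroup.subset_closure ⟨some i, rfl⟩
    exact hle (hlg ▸ Subgroup.mem_top l)
  have hQ' : ∀ q ∈ Set.range (f.comp (iL p)) ∪ {f (ib p)}, q ∈ Subgroup.closure Q := by
    rintro q (⟨l, rfl⟩ | rfl)
    · exact hiL l
    · exact Subgroup.subset_closure ⟨none, rfl⟩
  have hV' : ∀ v : p.V, Maps (v : Equiv.Perm (Pt Y)) [false] [false] →
      f (iV p v) ∈ Subgroup.closure (Set.range fun v : S => f (iV p v.1)) := by
    intro v hv
    have hle : Subgroup.closure (S : Set ↥p.V) ≤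
        (Subgroup.closure (Set.range fun v : S => f (iV p v.1))).comap (f.comp (iV p)) := by
      rw [Subgroup.closure_le]
      intro w hw
      exact Subgroup.subset_closure ⟨⟨w, hw⟩, rfl⟩
    exact hle (hS2 v hv)
  have hfix : ∀ v : p.V, Maps (v : Equiv.Perm (Pt Y)) [false] [false] →
      ∀ q ∈ Subgroup.closure Q, Commute (f (iV p v)) q := fun v hv q hq =>
    commute_of_gens (by rintro _ ⟨w, rfl⟩ _ ⟨o, rfl⟩; exact r1 w o) (hV' v hv) hq
  have stab : ∀ l : p.L, (l : Equiv.Perm Y) p.y₀ = p.y₀ → Commute (f (iL p l)) (f (ib p)) := by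
    intro l hl
    have hle : Subgroup.closure (T : Set ↥p.L) ≤
        (Subgroup.centralizer {f (ib p)}).comap (f.comp (iL p)) := by
      rw [Subgroup.closure_le]
      intro k hk
      exact Subgroup.mem_centralizer_singleton_iff.2 (r2 ⟨k, hk⟩).eq
    exact Subgroup.mem_centralizer_singleton_iff.1 (hle (hT.symm ▸ hl))
  have hpl : ∀ u x, f (plK p u x) = MulAut.conj (f (iV p (p.kTo u))) (f x) := fun u x => by
    rw [plK, map_mul, map_mul, map_inv]; rfl
  have hsub : ∀ {x y}, x ∈ Subgroup.closure Q → y ∈ Subgroup.closure Q →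
      Commute (MulAut.conj (f (iV p (p.kTo [false, false]))) x)
        (MulAut.conj (f (iV p (p.kTo [false, true]))) y) := by
    intro x y hx hy
    refine commute_of_gens
      (S := (MulAut.conj (f (iV p (p.kTo [false, false])))).toMonoidHom '' Q)
      (T := (MulAut.conj (f (iV p (p.kTo [false, true])))).toMonoidHom '' Q) ?_ ?_ ?_
    · rintro _ ⟨_, ⟨o, rfl⟩, rfl⟩ _ ⟨_, ⟨o', rfl⟩, rfl⟩
      have := r4 o o'
      rw [hpl, hpl] at this
      exact this
    · rw [← MonoidHom.map_closure]; exact ⟨x, hx, rfl⟩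
    · rw [← MonoidHom.map_closure]; exact ⟨y, hy, rfl⟩
  refine ⟨fun v hv l => hfix v hv _ (hiL l),
    fun v hv => hfix v hv _ (Subgroup.subset_closure ⟨none, rfl⟩), stab, ?_, ?_, ?_, ?_, ?_⟩
  · intro q hq q' hq'
    refine commute_of_gens (S := Q)
      (T := (MulAut.conj (f (iV p (p.kTo [true])))).toMonoidHom '' Q) ?_ (hQ' q hq) ?_
    · rintro _ ⟨o, rfl⟩ _ ⟨_, ⟨o', rfl⟩, rfl⟩
      have := r3 o o'
      rw [hpl] at this
      exact this
    · rw [← MonoidHom.map_closure]; exact ⟨q', hQ' q' hq', rfl⟩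
  · intro q hq q' hq'
    exact hsub (hQ' q hq) (hQ' q' hq')
  · intro l
    rw [hpl, hpl]
    have hl : l ∈ Subgroup.closure (Set.range lg) := hlg ▸ Subgroup.mem_top l
    induction hl using Subgroup.closure_induction with
    | mem x hx =>
      obtain ⟨i, rfl⟩ := hx
      have := r5 i
      rwa [map_mul, hpl, hpl] at this
    | one => simp
    | mul a b _ _ ha hb =>
      simp only [map_mul]
      conv_lhs => rw [ha, hb]
      exact (hsub (hiL b) (hiL a)).symm.mul_mul_mul_comm _ _
    | inv a _ ha =>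
      simp only [map_inv]
      conv_lhs => rw [ha, mul_inv_rev]
      exact ((hsub (hiL a) (hiL a)).inv_inv).eq.symm
  · rwa [map_mul, map_mul] at r6
  · intro l hl
    have hk : ((m⁻¹ * l : p.L) : Equiv.Perm Y) p.y₀ = p.y₀ := by
      simp [Subgroup.coe_mul, hl, ← hm]
    have hc := (stab _ hk).eq
    have e : f (iL p l * ib p * (iL p l)⁻¹) = f (iL p m * ib p * (iL p m)⁻¹) := by
      simp only [map_mul, map_inv] at hc ⊢
      calc f (iL p l) * f (ib p) * (f (iL p l))⁻¹
          = f (iL p m) * ((f (iL p m))⁻¹ * f (iL p l) * f (ib p)) * (f (iL p l))⁻¹ := by group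
        _ = _ := by rw [hc]; group
    rw [hpl, hpl, e]
    simp only [map_mul, hpl] at r7 ⊢
    exact r7

include hV hL hS hF in
/-- The twisted group is finitely presented and generated by the images of `V`, `L` and the
baker map. -/
theorem exists_equiv : Group.IsFinitelyPresented ↥(tableGroup p.L) ∧
    ∀ g ∈ tableGroup p.L, g ∈ (evK p).range := by
  obtain ⟨R, hR, hrel⟩ := evK_relK hL hS hF
  let N := Subgroup.normalClosure (R : Set (KG p))
  let f : KG p →* KG p ⧸ N := QuotientGroup.mk' N
  have hle : N ≤ (evK p).ker := Subgroup.normalClosure_le_normal fun r hr =>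
    MonoidHom.mem_ker.2 (hR r hr)
  have rk := hrel _ f fun r hr =>
    (QuotientGroup.eq_one_iff r).2 (Subgroup.subset_normalClosure hr)
  let π : KG p ⧸ N →* Equiv.Perm (Pt Y) := QuotientGroup.lift N (evK p) hle
  let B : Base p (KG p ⧸ N) :=
    { ιV := f.comp (iV p)
      ιL := f.comp (iL p)
      b := f (ib p)
      ev := π
      ev_V := fun v => evK_V p v
      ev_L := fun l x => by rw [show π (f.comp (iL p) l) = _ from evK_L p l]; exact lamHom_false l x
      ev_L' := fun l => by rw [show π (f.comp (iL p) l) = _ from evK_L p l]; exact lamHom_true l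
      ev_b := fun c x => by rw [show π (f (ib p)) = _ from evK_b p]; exact bTab_false p.y₀ c x
      ev_b' := by rw [show π (f (ib p)) = _ from evK_b p]; exact bTab_true p.y₀
      r_fixL := rk.fixL
      r_fixb := rk.fixb
      r_stab := rk.stab }
  have hpl : ∀ u x, f (plK p u x) = B.place u (f x) := fun u x => by
    rw [plK, map_mul, map_mul, map_inv, Base.place_apply]; rfl
  let Rl : Rels p (KG p ⧸ N) :=
    { toBase := B
      r_top := rk.top
      r_sub := rk.sub
      r_splitL := fun l => by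
        have := rk.splitL l
        rw [hpl, hpl] at this
        exact this
      r_splitb := by
        have := rk.splitb
        rw [hpl, hpl] at this
        exact this
      r_cube := fun l hl => by
        have := rk.cube l hl
        simp only [hpl, map_mul, map_inv] at this ⊢
        exact this }
  have gen : Subgroup.closure (Set.range Rl.ιV ∪ Set.range Rl.ιL ∪ {Rl.b}) = ⊤ := by
    rw [eq_top_iff]
    intro x hx
    clear hx
    obtain ⟨k, rfl⟩ := QuotientGroup.mk'_surjective N x
    induction k using Monoid.Coprod.induction_on with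
    | inl k =>
      induction k using Monoid.Coprod.induction_on with
      | inl v => exact Subgroup.subset_closure (Or.inl (Or.inl ⟨v, rfl⟩))
      | inr l => exact Subgroup.subset_closure (Or.inl (Or.inr ⟨l, rfl⟩))
      | mul a b ha hb => rw [map_mul, map_mul]; exact mul_mem ha hb
    | inr k =>
      induction k using FreeGroup.induction_on with
      | C1 => rw [map_one, map_one]; exact one_mem _
      | of u => exact Subgroup.subset_closure (Or.inr rfl)
      | inv_of u hu => rw [map_inv, map_inv]; exact inv_mem hu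
      | mul a b ha hb => rw [map_mul, map_mul]; exact mul_mem ha hb
    | mul a b ha hb => rw [map_mul]; exact mul_mem ha hb
  have := hV
  have := hL
  have hfp : Group.IsFinitelyPresented (KG p ⧸ N) :=
    Group.IsFinitelyPresented.quotient N ⟨R, R.finite_toSet, rfl⟩
  refine ⟨Group.IsFinitelyPresented.equiv (Rl.equiv gen) (h := hfp), fun g hg => ?_⟩
  obtain ⟨x, hx⟩ := (Rl.equiv gen).surjective ⟨g, hg⟩
  obtain ⟨k, rfl⟩ := QuotientGroup.mk'_surjective N x
  exact ⟨k, congrArg Subtype.val hx⟩

end Vale.Agent.P193.Twisted
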