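import Mathlib.GroupTheory.Perm.Basic
import Mathlib.Logic.Equiv.Option
import Mathlib.Algebra.Group.Subgroup.Defs
import Mathlib.Logic.Function.Basic
import Mathlib.Tactic.Set
import Mathlib.Logic.Equiv.Prod

/-! The space of the twisted Brin-Thompson group: one Cantor coordinate for each point of `Y`
and one extra coordinate, labelled trees and their tables (P193). -/

namespace Vale.Agent.P193.Twisted

variable {Y : Type}

/-- Coordinates: the points of `Y` and the extra coordinate `none`. -/
abbrev Co (Y : Type) := Option Y

/-- Points. -/
abbrev Pt (Y : Type) := Co Y → ℕ → Bool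

/-- A sequence is its first bit and its tail. -/
def seqEquiv : (ℕ → Bool) ≃ Bool × (ℕ → Bool) where
  toFun s := (s 0, fun n => s (n + 1))
  invFun p n := Nat.casesOn n p.1 p.2
  left_inv s := by funext n; cases n <;> rfl
  right_inv p := rfl

variable [DecidableEq Y]

/-- Split off the first bit of the coordinate `a`. -/
def split (a : Co Y) : Pt Y ≃ Bool × Pt Y where
  toFun x := ((seqEquiv (x a)).1, Function.update x a (seqEquiv (x a)).2)
  invFun p := Function.update p.2 a (seqEquiv.symm (p.1, p.2 a))
  left_inv x := by simp
  right_inv p := by simp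

/-- Prepend a bit in the coordinate `a`. -/
def cons (a : Co Y) (c : Bool) (x : Pt Y) : Pt Y := (split a).symm (c, x)

theorem cons_apply (a : Co Y) (c : Bool) (x : Pt Y) :
    cons a c x = Function.update x a (seqEquiv.symm (c, x a)) := rfl

theorem split_cons (a : Co Y) (c : Bool) (x : Pt Y) : split a (cons a c x) = (c, x) :=
  (split a).apply_symm_apply _

theorem cons_split (a : Co Y) (x : Pt Y) : cons a (split a x).1 (split a x).2 = x :=
  (split a).symm_apply_apply x

theorem cons_comm {a b : Co Y} (h : a ≠ b) (c d : Bool) (x : Pt Y) :
    cons a c (cons b d x) = cons b d (cons a c x) := by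
  simp only [cons_apply, Function.update_of_ne h, Function.update_of_ne h.symm]
  rw [Function.update_comm h]

theorem cons_inj {a : Co Y} {c d : Bool} {x y : Pt Y} :
    cons a c x = cons a d y ↔ c = d ∧ x = y := by
  simp [cons]

/-- Extend a permutation of `Y` to the coordinates, fixing the extra one. -/
def lft (l : Equiv.Perm Y) : Equiv.Perm (Co Y) := l.optionCongr

omit [DecidableEq Y] in
@[simp] theorem lft_some (l : Equiv.Perm Y) (y : Y) : lft l (some y) = some (l y) := rfl

omit [DecidableEq Y] in
@[simp] theorem lft_none (l : Equiv.Perm Y) : lft l none = none := rfl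

omit [DecidableEq Y] in
@[simp] theorem lft_symm_none (l : Equiv.Perm Y) : (lft l).symm none = none := rfl

omit [DecidableEq Y] in
@[simp] theorem lft_symm_some (l : Equiv.Perm Y) (y : Y) :
    (lft l).symm (some y) = some (l.symm y) := rfl

/-- Permute the coordinates of `Y`, fixing the extra one. -/
def twist : Equiv.Perm Y →* Equiv.Perm (Pt Y) where
  toFun l :=
    { toFun := fun x a => x ((lft l).symm a)
      invFun := fun x a => x (lft l a)
      left_inv := fun x => by funext a; simp
      right_inv := fun x => by funext a; simp }
  map_one' := by ext x a; cases a <;> rfl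
  map_mul' l k := by ext x a; cases a <;> rfl

theorem twist_apply (l : Equiv.Perm Y) (x : Pt Y) (a : Co Y) :
    twist l x a = x ((lft l).symm a) := rfl

theorem twist_cons (l : Equiv.Perm Y) (a : Co Y) (c : Bool) (x : Pt Y) :
    twist l (cons a c x) = cons (lft l a) c (twist l x) := by
  funext b
  simp only [twist_apply, cons_apply, Function.update_apply, Equiv.symm_apply_apply]
  by_cases h : b = lft l a
  · simp [h]
  · rw [if_neg h, if_neg fun e => h (by rw [← e, Equiv.apply_symm_apply])]

theorem twist_injective : Function.Injective (twist : Equiv.Perm Y → Equiv.Perm (Pt Y)) := by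
  intro l k h
  ext y
  have := congrArg (fun f : Equiv.Perm (Pt Y) =>
    f (fun a _ => decide (a = some y)) (some (l y)) 0) h
  simp only [twist_apply, lft_symm_some, Equiv.symm_apply_apply, decide_true] at this
  have h2 : some (k.symm (l y)) = some y := of_decide_eq_true this.symm
  exact (Equiv.symm_apply_eq k).1 (Option.some.inj h2)

/-- A binary tree whose nodes are labelled by coordinates. -/
inductive Tree (Y : Type) where
  | leaf
  | node (a : Co Y) (l r : Tree Y)

namespace Tree

/-- The leaves of a tree. -/
def Leaf : Tree Y → Type
  | leaf => Unit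
  | node _ l r => Leaf l ⊕ Leaf r

/-- The point at position `x` of the brick of a leaf. -/
def point : (T : Tree Y) → T.Leaf → Pt Y → Pt Y
  | leaf, _, x => x
  | node a l _, Sum.inl i, x => cons a false (l.point i x)
  | node a _ r, Sum.inr i, x => cons a true (r.point i x)

/-- The leaf of a point, and its position there. -/
def locate : (T : Tree Y) → Pt Y → T.Leaf × Pt Y
  | leaf, x => ((), x)
  | node a l r, x =>
    if (split a x).1 then (Sum.inr (r.locate (split a x).2).1, (r.locate (split a x).2).2)
    else (Sum.inl (l.locate (split a x).2).1, (l.locate (split a x).2).2)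

theorem point_locate : ∀ (T : Tree Y) (x : Pt Y), T.point (T.locate x).1 (T.locate x).2 = x
  | leaf, x => rfl
  | node a l r, x => by
    cases h : (split a x).1
    · simp only [locate, h, Bool.false_eq_true, if_false, point, point_locate l]
      rw [← h, cons_split]
    · simp only [locate, h, if_true, point, point_locate r]
      rw [← h, cons_split]

theorem locate_point : ∀ (T : Tree Y) (i : T.Leaf) (x : Pt Y), T.locate (T.point i x) = (i, x)
  | leaf, _, x => rfl
  | node a l r, Sum.inl i, x => by
    simp only [point, locate, split_cons, Bool.false_eq_true, if_false, locate_point l]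
  | node a l r, Sum.inr i, x => by
    simp only [point, locate, split_cons, if_true, locate_point r]

/-- A point is a leaf and a position in it. -/
def dec (T : Tree Y) : Pt Y ≃ T.Leaf × Pt Y where
  toFun := T.locate
  invFun p := T.point p.1 p.2
  left_inv := T.point_locate
  right_inv p := T.locate_point p.1 p.2

/-- The address of a leaf in the shape of the tree. -/
def addr : (T : Tree Y) → T.Leaf → List Bool
  | leaf, _ => []
  | node _ l _, Sum.inl i => false :: l.addr i
  | node _ _ r, Sum.inr i => true :: r.addr i

/-- Forget the labels: the same shape on the extra coordinate. -/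
def shape : Tree Y → Tree Y
  | leaf => leaf
  | node _ l r => node none l.shape r.shape

/-- The leaves of the shape. -/
def shapeEquiv : (T : Tree Y) → T.Leaf ≃ T.shape.Leaf
  | leaf => Equiv.refl _
  | node _ l r => Equiv.sumCongr l.shapeEquiv r.shapeEquiv

end Tree

variable (L : Subgroup (Equiv.Perm Y))

/-- A table. -/
structure Table where
  dom : Tree Y
  cod : Tree Y
  σ : dom.Leaf ≃ cod.Leaf
  lab : dom.Leaf → L

variable {L}

/-- The permutation of a table. -/
def Table.perm (t : Table L) : Equiv.Perm (Pt Y) :=
  (t.dom.dec.trans
    ((Equiv.prodShear t.σ fun i => twist (t.lab i : Equiv.Perm Y)))).trans t.cod.dec.symm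

theorem Table.perm_point (t : Table L) (i : t.dom.Leaf) (x : Pt Y) :
    t.perm (t.dom.point i x) = t.cod.point (t.σ i) (twist (t.lab i : Equiv.Perm Y) x) := by
  simp [Table.perm, Tree.dec, Tree.locate_point]

theorem Table.perm_unique (t : Table L) (g : Equiv.Perm (Pt Y))
    (h : ∀ i x, g (t.dom.point i x) = t.cod.point (t.σ i) (twist (t.lab i : Equiv.Perm Y) x)) :
    g = t.perm := by
  ext1 x
  rw [← t.dom.point_locate x, h, t.perm_point]

end Vale.Agent.P193.Twisted
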