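import Vale.Agent.P193.Full.Twisted.Space
import Mathlib.Logic.Equiv.Sum
import Mathlib.Tactic.Tauto

/-! Cube moves, grafting and common refinements of labelled trees (P193). -/

namespace Vale.Agent.P193.Twisted

variable {Y : Type} [DecidableEq Y]

namespace Tree

/-- Equality of trees up to exchanging two neighbouring levels of different coordinates. -/
inductive Cube : Tree Y → Tree Y → Prop
  | refl (T) : Cube T T
  | symm {S T} : Cube S T → Cube T S
  | trans {R S T} : Cube R S → Cube S T → Cube R T
  | congr (a) {S S' T T'} : Cube S S' → Cube T T' → Cube (node a S T) (node a S' T')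
  | swap {a b} (h : a ≠ b) (A B C D) :
      Cube (node a (node b A B) (node b C D)) (node b (node a A C) (node a B D))

/-- The exchange of the four groups of leaves in a cube move. -/
def swapLeaf {a b : Co Y} (A B C D : Tree Y) :
    (node a (node b A B) (node b C D)).Leaf ≃ (node b (node a A C) (node a B D)).Leaf :=
  Equiv.sumSumSumComm A.Leaf B.Leaf C.Leaf D.Leaf

/-- The same bricks, possibly listed in another order. -/
def SameBricks (S T : Tree Y) : Prop :=
  ∃ e : S.Leaf ≃ T.Leaf, ∀ i x, T.point (e i) x = S.point i x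

theorem swapLeaf_point {a b : Co Y} (h : a ≠ b) (A B C D : Tree Y)
    (i : (node a (node b A B) (node b C D)).Leaf) (x : Pt Y) :
    (node b (node a A C) (node a B D)).point (swapLeaf A B C D i) x =
      (node a (node b A B) (node b C D)).point i x := by
  rcases i with (i | i) | (i | i) <;> exact cons_comm h.symm _ _ _

theorem Cube.sameBricks {S T : Tree Y} (h : Cube S T) : SameBricks S T := by
  induction h with
  | refl T => exact ⟨Equiv.refl _, fun _ _ => rfl⟩
  | symm _ ih =>
    obtain ⟨e, he⟩ := ih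
    exact ⟨e.symm, fun i x => by rw [← he, Equiv.apply_symm_apply]⟩
  | trans _ _ ih ih' =>
    obtain ⟨e, he⟩ := ih
    obtain ⟨f, hf⟩ := ih'
    exact ⟨e.trans f, fun i x => by rw [Equiv.trans_apply, hf, he]⟩
  | congr a _ _ ih ih' =>
    obtain ⟨e, he⟩ := ih
    obtain ⟨f, hf⟩ := ih'
    refine ⟨Equiv.sumCongr e f, ?_⟩
    rintro (i | i) x
    · exact congrArg (cons a false) (he i x)
    · exact congrArg (cons a true) (hf i x)
  | swap h A B C D => exact ⟨swapLeaf A B C D, swapLeaf_point h A B C D⟩

/-- Replace each leaf by a tree. -/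
def graft : (T : Tree Y) → (T.Leaf → Tree Y) → Tree Y
  | leaf, f => f ()
  | node a l r, f => node a (l.graft fun i => f (Sum.inl i)) (r.graft fun i => f (Sum.inr i))

/-- The leaves of a grafted tree. -/
def graftEquiv : (T : Tree Y) → (f : T.Leaf → Tree Y) → (T.graft f).Leaf ≃ Σ i, (f i).Leaf
  | leaf, f => (Equiv.uniqueSigma (β := fun i : Unit => (f i).Leaf)).symm
  | node a l r, f =>
    (Equiv.sumCongr (l.graftEquiv fun i => f (Sum.inl i))
      (r.graftEquiv fun i => f (Sum.inr i))).trans
      (Equiv.sumSigmaDistrib fun i : l.Leaf ⊕ r.Leaf => (f i).Leaf).symm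

theorem graft_point : ∀ (T : Tree Y) (f : T.Leaf → Tree Y) (k : (T.graft f).Leaf) (x : Pt Y),
    (T.graft f).point k x =
      T.point (T.graftEquiv f k).1 ((f (T.graftEquiv f k).1).point (T.graftEquiv f k).2 x)
  | leaf, f, k, x => rfl
  | node a l r, f, k, x => by
    rcases k with k | k
    · exact congrArg (cons a false) (graft_point l _ k x)
    · exact congrArg (cons a true) (graft_point r _ k x)

/-- Every brick of `S` lies in a brick of `T`. -/
def Refines (S T : Tree Y) : Prop := ∀ j, ∃ i, ∀ x, ∃ z, S.point j x = T.point i z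

theorem Refines.refl (S : Tree Y) : Refines S S := fun j => ⟨j, fun x => ⟨x, rfl⟩⟩

theorem Refines.trans {R S T : Tree Y} (h : Refines R S) (h' : Refines S T) : Refines R T := by
  intro k
  obtain ⟨j, hj⟩ := h k
  obtain ⟨i, hi⟩ := h' j
  refine ⟨i, fun x => ?_⟩
  obtain ⟨z, hz⟩ := hj x
  obtain ⟨w, hw⟩ := hi z
  exact ⟨w, hz.trans hw⟩

theorem SameBricks.refines {S T : Tree Y} (h : SameBricks S T) : Refines S T := by
  obtain ⟨e, he⟩ := h
  exact fun j => ⟨e j, fun x => ⟨x, (he j x).symm⟩⟩

theorem refines_graft (T : Tree Y) (f : T.Leaf → Tree Y) : Refines (T.graft f) T :=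
  fun k => ⟨(T.graftEquiv f k).1, fun _ => ⟨_, T.graft_point f k _⟩⟩

theorem refines_node {a : Co Y} {S S' T T' : Tree Y} (h : Refines S S') (h' : Refines T T') :
    Refines (node a S T) (node a S' T') := by
  rintro (j | j)
  · obtain ⟨i, hi⟩ := h j
    refine ⟨Sum.inl i, fun x => ?_⟩
    obtain ⟨z, hz⟩ := hi x
    exact ⟨z, congrArg (cons a false) hz⟩
  · obtain ⟨i, hi⟩ := h' j
    refine ⟨Sum.inr i, fun x => ?_⟩
    obtain ⟨z, hz⟩ := hi x
    exact ⟨z, congrArg (cons a true) hz⟩

/-- Every brick fixes the first bit in the coordinate `a`. -/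
def Fixes (a : Co Y) (S : Tree Y) : Prop := ∀ j, ∃ c, ∀ x, S.point j x a 0 = c

theorem cons_self (a : Co Y) (c : Bool) (x : Pt Y) : cons a c x a 0 = c := by
  simp [cons_apply, seqEquiv]

theorem cons_other {a b : Co Y} (h : a ≠ b) (c : Bool) (x : Pt Y) : cons b c x a = x a := by
  simp [cons_apply, Function.update_of_ne h]

theorem pull (a : Co Y) : ∀ S : Tree Y, Fixes a S → ∃ S₀ S₁, Cube S (node a S₀ S₁)
  | leaf, h => by
    obtain ⟨c, hc⟩ := h ()
    have := hc fun _ _ => !c
    simp [point] at this
  | node b l r, h => by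
    by_cases hba : b = a
    · subst hba; exact ⟨l, r, Cube.refl _⟩
    have hl : Fixes a l := fun j => by
      obtain ⟨c, hc⟩ := h (Sum.inl j)
      exact ⟨c, fun x => by simpa [point, cons_other (Ne.symm hba)] using hc x⟩
    have hr : Fixes a r := fun j => by
      obtain ⟨c, hc⟩ := h (Sum.inr j)
      exact ⟨c, fun x => by simpa [point, cons_other (Ne.symm hba)] using hc x⟩
    obtain ⟨A, B, hAB⟩ := pull a l hl
    obtain ⟨C, D, hCD⟩ := pull a r hr
    exact ⟨node b A C, node b B D, (Cube.congr b hAB hCD).trans (Cube.swap hba A B C D)⟩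

theorem fixes_of_refines {a : Co Y} {S T₀ T₁ : Tree Y} (h : Refines S (node a T₀ T₁)) :
    Fixes a S := by
  intro j
  obtain ⟨i, hi⟩ := h j
  rcases i with i | i
  · exact ⟨false, fun x => by obtain ⟨z, hz⟩ := hi x; rw [hz]; exact cons_self a false _⟩
  · exact ⟨true, fun x => by obtain ⟨z, hz⟩ := hi x; rw [hz]; exact cons_self a true _⟩

theorem refines_halves {a : Co Y} {S₀ S₁ T₀ T₁ : Tree Y}
    (h : Refines (node a S₀ S₁) (node a T₀ T₁)) : Refines S₀ T₀ ∧ Refines S₁ T₁ := by
  constructor <;> intro j
  · obtain ⟨i, hi⟩ := h (Sum.inl j)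
    rcases i with i | i
    · refine ⟨i, fun x => ?_⟩
      obtain ⟨z, hz⟩ := hi x
      exact ⟨z, (cons_inj.1 hz).2⟩
    · obtain ⟨z, hz⟩ := hi fun _ _ => false
      simpa using (cons_inj.1 hz).1
  · obtain ⟨i, hi⟩ := h (Sum.inr j)
    rcases i with i | i
    · obtain ⟨z, hz⟩ := hi fun _ _ => false
      simpa using (cons_inj.1 hz).1
    · refine ⟨i, fun x => ?_⟩
      obtain ⟨z, hz⟩ := hi x
      exact ⟨z, (cons_inj.1 hz).2⟩

/-- A refinement is a graft up to cube moves. -/
theorem exists_graft : ∀ (T S : Tree Y), Refines S T → ∃ f, Cube S (T.graft f)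
  | leaf, S, _ => ⟨fun _ => S, Cube.refl _⟩
  | node a T₀ T₁, S, h => by
    obtain ⟨S₀, S₁, hS⟩ := pull a S (fixes_of_refines h)
    obtain ⟨h₀, h₁⟩ := refines_halves (hS.symm.sameBricks.refines.trans h)
    obtain ⟨f₀, hf₀⟩ := exists_graft T₀ S₀ h₀
    obtain ⟨f₁, hf₁⟩ := exists_graft T₁ S₁ h₁
    exact ⟨Sum.elim f₀ f₁, hS.trans (Cube.congr a hf₀ hf₁)⟩

/-- Two trees have a common refinement. -/
theorem exists_common : ∀ T T' : Tree Y, ∃ S, Refines S T ∧ Refines S T'
  | leaf, T' => ⟨T', fun _ => ⟨(), fun x => ⟨_, rfl⟩⟩, Refines.refl T'⟩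
  | node a T₀ T₁, T' => by
    have hfix : Fixes a (T'.graft fun _ => node a leaf leaf) := by
      intro k
      generalize hk : T'.graftEquiv (fun _ => node a leaf leaf) k = p
      obtain ⟨i, j⟩ := p
      by_cases hT : ∀ x : Pt Y, T'.point i x a = x a
      · rcases j with u | u
        · refine ⟨false, fun x => ?_⟩
          rw [graft_point, hk, hT]; exact cons_self a false _
        · refine ⟨true, fun x => ?_⟩
          rw [graft_point, hk, hT]; exact cons_self a true _
      · obtain ⟨c, hc⟩ := point_bit T' i a hT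
        exact ⟨c, fun x => by rw [graft_point, hk, hc]⟩
    obtain ⟨A₀, A₁, hA⟩ := pull a _ hfix
    obtain ⟨S₀, h₀, g₀⟩ := exists_common T₀ A₀
    obtain ⟨S₁, h₁, g₁⟩ := exists_common T₁ A₁
    refine ⟨node a S₀ S₁, refines_node h₀ h₁, ?_⟩
    exact (refines_node g₀ g₁).trans (hA.symm.sameBricks.refines.trans (refines_graft T' _))
where
  point_bit : ∀ (T : Tree Y) (i : T.Leaf) (a : Co Y), ¬ (∀ x : Pt Y, T.point i x a = x a) →
      ∃ c, ∀ x : Pt Y, T.point i x a 0 = c
    | leaf, _, _, h => absurd (fun _ => rfl) h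
    | node b l r, i, a, h => by
      by_cases hba : b = a
      · subst hba
        rcases i with i | i
        · exact ⟨false, fun x => cons_self b false _⟩
        · exact ⟨true, fun x => cons_self b true _⟩
      · rcases i with i | i
        · obtain ⟨c, hc⟩ := point_bit l i a fun h' => h fun x => by
            simp [point, cons_other (Ne.symm hba), h']
          exact ⟨c, fun x => by simp [point, cons_other (Ne.symm hba), hc]⟩
        · obtain ⟨c, hc⟩ := point_bit r i a fun h' => h fun x => by
            simp [point, cons_other (Ne.symm hba), h']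
          exact ⟨c, fun x => by simp [point, cons_other (Ne.symm hba), hc]⟩

/-- Trees with the same bricks differ by cube moves. -/
theorem cube_of_refines : ∀ {T S : Tree Y}, Refines S T → Refines T S → Cube S T := by
  intro T S h h'
  obtain ⟨f, hf⟩ := exists_graft T S h
  have hT : Refines T (T.graft f) := h'.trans hf.sameBricks.refines
  have : ∀ i, f i = leaf := by
    intro i
    obtain ⟨k, hk⟩ := hT i
    match hfi : f i with
    | leaf => rfl
    | node b l r =>
      exfalso
      have key : ∀ x, (T.graftEquiv f k).1 = i ∧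
          ∃ z, x = (f (T.graftEquiv f k).1).point (T.graftEquiv f k).2 z := by
        intro x
        obtain ⟨z, hz⟩ := hk x
        rw [graft_point] at hz
        have := congrArg T.locate hz
        rw [locate_point, locate_point] at this
        exact ⟨(congrArg Prod.fst this).symm, z, congrArg Prod.snd this⟩
      have h1 := (key fun _ _ => false).1
      obtain ⟨⟨i', j⟩, hp⟩ : ∃ p, T.graftEquiv f k = p := ⟨_, rfl⟩
      rw [hp] at h1 key
      simp only at h1
      subst h1
      obtain ⟨c, hc⟩ : ∃ c, ∀ z, (f i').point j z b 0 = c := by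
        have hU : ∀ U : Tree Y, U = node b l r → ∀ j : U.Leaf, ∃ c, ∀ z, U.point j z b 0 = c := by
          rintro _ rfl (j | j)
          · exact ⟨false, fun z => cons_self b false _⟩
          · exact ⟨true, fun z => cons_self b true _⟩
        exact hU _ hfi j
      obtain ⟨-, z, hz⟩ := key fun _ _ => !c
      have := congrFun (congrFun hz b) 0
      simp [hc] at this
  have hgraft : ∀ (T : Tree Y) (g : T.Leaf → Tree Y), (∀ i, g i = leaf) → T.graft g = T := by
    intro T
    induction T with
    | leaf => intro g hg; exact hg ()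
    | node a l r ihl ihr =>
      intro g hg
      simp [graft, ihl _ fun i => hg (Sum.inl i), ihr _ fun i => hg (Sum.inr i)]
  rwa [hgraft T f this] at hf

end Tree

end Vale.Agent.P193.Twisted
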