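import Vale.Agent.P193.Full.Twisted.Group
import Mathlib.Data.Fintype.EquivFin
import Mathlib.Data.Fintype.Sum
import Mathlib.Tactic.FinCases

/-! Addresses on the extra coordinate and the group of their code maps (P193). -/

namespace Vale.Agent.P193.Twisted

variable {Y : Type} [DecidableEq Y]

/-- Prepend a word in the extra coordinate. -/
def pre (u : List Bool) (x : Pt Y) : Pt Y := u.foldr (fun c z => cons none c z) x

@[simp] theorem pre_nil (x : Pt Y) : pre [] x = x := rfl

@[simp] theorem pre_cons (c : Bool) (u : List Bool) (x : Pt Y) :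
    pre (c :: u) x = cons none c (pre u x) := rfl

theorem pre_append (u w : List Bool) (x : Pt Y) : pre (u ++ w) x = pre u (pre w x) := by
  induction u with
  | nil => rfl
  | cons c u ih => simp [ih]

theorem pre_inj : ∀ (u : List Bool) {x y : Pt Y}, pre u x = pre u y → x = y
  | [], _, _, h => h
  | _ :: u, _, _, h => pre_inj u (cons_inj.1 h).2

theorem twist_pre (l : Equiv.Perm Y) (u : List Bool) (x : Pt Y) :
    twist l (pre u x) = pre u (twist l x) := by
  induction u with
  | nil => rfl
  | cons c u ih => rw [pre_cons, twist_cons, ih]; rfl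

/-- Neither word is a prefix of the other. -/
def Inc (u w : List Bool) : Prop := ¬ u <+: w ∧ ¬ w <+: u

theorem Inc.symm {u w : List Bool} (h : Inc u w) : Inc w u := ⟨h.2, h.1⟩

theorem inc_cons {c d : Bool} {u w : List Bool} (h : Inc (c :: u) (d :: w)) :
    c ≠ d ∨ (c = d ∧ Inc u w) := by
  by_cases hcd : c = d
  · subst hcd
    exact Or.inr ⟨rfl, fun e => h.1 (List.prefix_cons_inj c |>.2 e),
      fun e => h.2 (List.prefix_cons_inj c |>.2 e)⟩
  · exact Or.inl hcd

theorem inc_append (u : List Bool) {p q : List Bool} (h : Inc p q) : Inc (u ++ p) (u ++ q) :=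
  ⟨fun e => h.1 ((List.prefix_append_right_inj u).1 e),
    fun e => h.2 ((List.prefix_append_right_inj u).1 e)⟩

theorem Inc.extend {u w : List Bool} (h : Inc u w) (p q : List Bool) :
    Inc (u ++ p) (w ++ q) :=
  ⟨fun e => (List.prefix_or_prefix_of_prefix ((List.prefix_append u p).trans e)
      (List.prefix_append w q)).elim h.1 h.2,
    fun e => (List.prefix_or_prefix_of_prefix ((List.prefix_append w q).trans e)
      (List.prefix_append u p)).elim h.2 h.1⟩

theorem inc_halves (u : List Bool) : Inc (u ++ [false]) (u ++ [true]) :=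
  inc_append u (by constructor <;> simp [List.cons_prefix_cons])

theorem pre_ne {u w : List Bool} (h : Inc u w) (x y : Pt Y) : pre u x ≠ pre w y := by
  induction u generalizing w with
  | nil => exact absurd List.nil_prefix h.1
  | cons c u ih =>
    cases w with
    | nil => exact absurd List.nil_prefix h.2
    | cons d w =>
      intro e
      rcases inc_cons h with hcd | ⟨rfl, h'⟩
      · exact hcd (cons_inj.1 e).1
      · exact ih h' (cons_inj.1 e).2

/-- `g` sends the prefix `u` to the prefix `w`. -/
def Maps (g : Equiv.Perm (Pt Y)) (u w : List Bool) : Prop := ∀ x, g (pre u x) = pre w x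

theorem Maps.extend {g : Equiv.Perm (Pt Y)} {u w : List Bool} (h : Maps g u w) (s : List Bool) :
    Maps g (u ++ s) (w ++ s) := fun x => by rw [pre_append, h, pre_append]

theorem Maps.one (u : List Bool) : Maps (1 : Equiv.Perm (Pt Y)) u u := fun _ => rfl

theorem Maps.mul {g h : Equiv.Perm (Pt Y)} {u v w : List Bool} (hh : Maps h u v) (hg : Maps g v w) :
    Maps (g * h) u w := fun x => by rw [Equiv.Perm.mul_apply, hh, hg]

theorem Maps.inv {g : Equiv.Perm (Pt Y)} {u w : List Bool} (h : Maps g u w) : Maps g⁻¹ w u :=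
  fun x => Equiv.Perm.inv_eq_iff_eq.2 (h x).symm

namespace Tree

/-- All leaves, in order. -/
def leaves : (T : Tree Y) → List T.Leaf
  | leaf => [()]
  | node _ l r => l.leaves.map Sum.inl ++ r.leaves.map Sum.inr

theorem mem_leaves : ∀ (T : Tree Y) (i : T.Leaf), i ∈ T.leaves
  | leaf, _ => List.mem_singleton_self _
  | node _ l r, Sum.inl i => List.mem_append_left _ (List.mem_map_of_mem (l.mem_leaves i))
  | node _ l r, Sum.inr i => List.mem_append_right _ (List.mem_map_of_mem (r.mem_leaves i))

theorem nodup_leaves : ∀ T : Tree Y, T.leaves.Nodup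
  | leaf => List.nodup_singleton _
  | node _ l r => List.Nodup.append (l.nodup_leaves.map Sum.inl_injective)
      (r.nodup_leaves.map Sum.inr_injective) fun x hx hy => by
        obtain ⟨i, _, rfl⟩ := List.mem_map.1 hx
        obtain ⟨j, _, e⟩ := List.mem_map.1 hy
        exact Sum.inr_ne_inl e

instance instDecEqLeaf : ∀ T : Tree Y, DecidableEq T.Leaf
  | leaf => inferInstanceAs (DecidableEq Unit)
  | node _ l r =>
    haveI := instDecEqLeaf l
    haveI := instDecEqLeaf r
    inferInstanceAs (DecidableEq (l.Leaf ⊕ r.Leaf))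

instance instFintypeLeaf (T : Tree Y) : Fintype T.Leaf :=
  ⟨⟨T.leaves, T.nodup_leaves⟩, T.mem_leaves⟩

theorem card_leaf : Fintype.card (leaf : Tree Y).Leaf = 1 := rfl

theorem card_node (a : Co Y) (l r : Tree Y) :
    Fintype.card (node a l r).Leaf = Fintype.card l.Leaf + Fintype.card r.Leaf := by
  exact (Fintype.card_congr (Equiv.refl (l.Leaf ⊕ r.Leaf))).trans Fintype.card_sum

theorem card_pos : ∀ T : Tree Y, 0 < Fintype.card T.Leaf
  | leaf => Nat.one_pos
  | node a l r => by rw [card_node]; have := card_pos l; omega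

theorem addr_inc : ∀ (T : Tree Y) {i j : T.Leaf}, i ≠ j → Inc (T.addr i) (T.addr j)
  | leaf, _, _, h => absurd rfl h
  | node _ l r, Sum.inl i, Sum.inl j, h => inc_append [false] (l.addr_inc fun e => h (congrArg _ e))
  | node _ l r, Sum.inr i, Sum.inr j, h => inc_append [true] (r.addr_inc fun e => h (congrArg _ e))
  | node _ l r, Sum.inl i, Sum.inr j, _ => by constructor <;> simp [addr, List.cons_prefix_cons]
  | node _ l r, Sum.inr i, Sum.inl j, _ => by constructor <;> simp [addr, List.cons_prefix_cons]

theorem shape_point : ∀ (T : Tree Y) (i : T.Leaf) (x : Pt Y),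
    T.shape.point (T.shapeEquiv i) x = pre (T.addr i) x
  | leaf, _, _ => rfl
  | node a l r, Sum.inl i, x => congrArg (cons none false) (l.shape_point i x)
  | node a l r, Sum.inr i, x => congrArg (cons none true) (r.shape_point i x)

theorem exists_addr (T : Tree Y) (x : Pt Y) : ∃ i z, pre (T.addr i) z = x :=
  ⟨T.shapeEquiv.symm (T.shape.locate x).1, (T.shape.locate x).2, by
    rw [← shape_point, Equiv.apply_symm_apply, point_locate]⟩

theorem shape_addr : ∀ (T : Tree Y) (i : T.Leaf), T.shape.addr (T.shapeEquiv i) = T.addr i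
  | leaf, _ => rfl
  | node a l r, Sum.inl i => congrArg (List.cons false) (l.shape_addr i)
  | node a l r, Sum.inr i => congrArg (List.cons true) (r.shape_addr i)

/-- The code map between the shapes of two trees. -/
def code (A B : Tree Y) (σ : A.Leaf ≃ B.Leaf) : Equiv.Perm (Pt Y) :=
  (A.shape.dec.trans (Equiv.prodCongr (A.shapeEquiv.symm.trans (σ.trans B.shapeEquiv))
    (Equiv.refl _))).trans B.shape.dec.symm

theorem code_maps (A B : Tree Y) (σ : A.Leaf ≃ B.Leaf) (i : A.Leaf) :
    Maps (code A B σ) (A.addr i) (B.addr (σ i)) := fun x => by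
  rw [← shape_point, ← shape_point]
  simp [code, Tree.dec, locate_point]

theorem ext_addr (A : Tree Y) {g h : Equiv.Perm (Pt Y)}
    (e : ∀ i x, g (pre (A.addr i) x) = h (pre (A.addr i) x)) : g = h := by
  ext1 x
  obtain ⟨i, z, rfl⟩ := A.exists_addr x
  exact e i z

/-- A tree with only one branch to the given word. -/
def spine : List Bool → Tree Y
  | [] => leaf
  | false :: u => node none (spine u) leaf
  | true :: u => node none leaf (spine u)

theorem spine_addr : ∀ u : List Bool, ∃ i : (spine u : Tree Y).Leaf, (spine u).addr i = u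
  | [] => ⟨(), rfl⟩
  | false :: u => by
    obtain ⟨i, hi⟩ := spine_addr u
    exact ⟨Sum.inl i, congrArg (List.cons false) hi⟩
  | true :: u => by
    obtain ⟨i, hi⟩ := spine_addr u
    exact ⟨Sum.inr i, congrArg (List.cons true) hi⟩

theorem spine_card : ∀ u : List Bool, Fintype.card (spine u : Tree Y).Leaf = u.length + 1
  | [] => rfl
  | false :: u => by rw [spine, card_node, spine_card u]; rfl
  | true :: u => by rw [spine, card_node, spine_card u, card_leaf, List.length_cons]; omega

/-- A comb with the given number of nodes. -/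
def comb : ℕ → Tree Y
  | 0 => leaf
  | n + 1 => node none leaf (comb n)

theorem comb_card : ∀ n, Fintype.card (comb n : Tree Y).Leaf = n + 1
  | 0 => rfl
  | n + 1 => by rw [comb, card_node, comb_card n, card_leaf]; omega

end Tree

open Tree in
/-- A tree having two given incomparable words among its leaves; three leaves at least unless the
words are the two letters. -/
theorem exists_pair_tree : ∀ u w : List Bool, Inc u w → ∃ (T : Tree Y) (i j : T.Leaf),
    i ≠ j ∧ T.addr i = u ∧ T.addr j = w ∧
      (Fintype.card T.Leaf = 2 → u.length = 1 ∧ w.length = 1)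
  | [], _, h => absurd List.nil_prefix h.1
  | _ :: _, [], h => absurd List.nil_prefix h.2
  | c :: u, d :: w, h => by
    rcases inc_cons h with hcd | ⟨rfl, h'⟩
    · obtain ⟨i, hi⟩ := Tree.spine_addr (Y := Y) u
      obtain ⟨j, hj⟩ := Tree.spine_addr (Y := Y) w
      cases c <;> cases d <;> simp at hcd
      · refine ⟨node none (spine u) (spine w), Sum.inl i, Sum.inr j, Sum.inl_ne_inr,
          congrArg (List.cons false) hi, congrArg (List.cons true) hj, ?_⟩
        rw [card_node, spine_card, spine_card, List.length_cons, List.length_cons]; omega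
      · refine ⟨node none (spine w) (spine u), Sum.inr i, Sum.inl j, Sum.inr_ne_inl,
          congrArg (List.cons true) hi, congrArg (List.cons false) hj, ?_⟩
        rw [card_node, spine_card, spine_card, List.length_cons, List.length_cons]; omega
    · obtain ⟨T, i, j, hij, hi, hj, -⟩ := exists_pair_tree u w h'
      have h2 : 1 < Fintype.card T.Leaf := Fintype.one_lt_card_iff.2 ⟨i, j, hij⟩
      cases c
      · refine ⟨node none T leaf, Sum.inl i, Sum.inl j, fun e => hij (Sum.inl_injective e),
          congrArg (List.cons false) hi, congrArg (List.cons false) hj, ?_⟩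
        rw [card_node, card_leaf]; omega
      · refine ⟨node none leaf T, Sum.inr i, Sum.inr j, fun e => hij (Sum.inr_injective e),
          congrArg (List.cons true) hi, congrArg (List.cons true) hj, ?_⟩
        rw [card_node, card_leaf]; omega

/-- A group of permutations consisting of the code maps. -/
def IsCodeGroup (V : Subgroup (Equiv.Perm (Pt Y))) : Prop :=
  ∀ g, g ∈ V ↔ ∃ (A B : Tree Y) (σ : A.Leaf ≃ B.Leaf), ∀ i, Maps g (A.addr i) (B.addr (σ i))

namespace IsCodeGroup

variable {V : Subgroup (Equiv.Perm (Pt Y))} (hV : IsCodeGroup V)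
include hV

theorem code_mem (A B : Tree Y) (σ : A.Leaf ≃ B.Leaf) : A.code B σ ∈ V :=
  (hV _).2 ⟨A, B, σ, A.code_maps B σ⟩

open Tree in
theorem exists_maps {u : List Bool} (hu : u ≠ []) : ∃ g ∈ V, Maps g [false] u := by
  obtain ⟨i, hi⟩ := spine_addr (Y := Y) u
  obtain ⟨m, hm⟩ : ∃ m, u.length = m + 1 := ⟨u.length - 1, by
    have := List.length_pos_of_ne_nil hu; omega⟩
  obtain ⟨σ₀⟩ : Nonempty ((node none leaf (comb m) : Tree Y).Leaf ≃ (spine u : Tree Y).Leaf) :=
    ⟨Fintype.equivOfCardEq (by rw [card_node, card_leaf, comb_card, spine_card, hm]; omega)⟩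
  let σ := σ₀.trans (Equiv.swap (σ₀ (Sum.inl ())) i)
  refine ⟨_, hV.code_mem _ _ σ, ?_⟩
  have := code_maps (node none leaf (comb m)) (spine u) σ (Sum.inl ())
  rwa [show σ (Sum.inl ()) = i from Equiv.swap_apply_left _ _, hi] at this

open Tree in
theorem exists_maps_pair {u w : List Bool} (h : Inc u w) :
    (u.length = 1 ∧ w.length = 1) ∨
      ∃ g ∈ V, Maps g [false, false] u ∧ Maps g [false, true] w := by
  obtain ⟨T, i, j, hij, hi, hj, h2⟩ := exists_pair_tree (Y := Y) u w h
  by_cases hc : Fintype.card T.Leaf = 2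
  · exact Or.inl (h2 hc)
  refine Or.inr ?_
  have h1 : 1 < Fintype.card T.Leaf := Fintype.one_lt_card_iff.2 ⟨i, j, hij⟩
  obtain ⟨m, hm⟩ : ∃ m, Fintype.card T.Leaf = m + 3 := ⟨Fintype.card T.Leaf - 3, by omega⟩
  let A : Tree Y := node none (node none leaf leaf) (comb m)
  obtain ⟨σ₀⟩ : Nonempty (A.Leaf ≃ T.Leaf) :=
    ⟨Fintype.equivOfCardEq (by rw [card_node, card_node, card_leaf, comb_card, hm]; omega)⟩
  let p : A.Leaf := Sum.inl (Sum.inl ())
  let q : A.Leaf := Sum.inl (Sum.inr ())
  have hpq : p ≠ q := fun e => Sum.inl_ne_inr (Sum.inl_injective e)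
  let σ₁ := σ₀.trans (Equiv.swap (σ₀ p) i)
  have hp : σ₁ p = i := Equiv.swap_apply_left _ _
  let σ := σ₁.trans (Equiv.swap (σ₁ q) j)
  have hp' : σ p = i := by
    show Equiv.swap (σ₁ q) j (σ₁ p) = i
    rw [hp]
    exact Equiv.swap_apply_of_ne_of_ne (fun e => hpq (σ₁.injective (hp.trans e))) hij
  have hq' : σ q = j := Equiv.swap_apply_left _ _
  refine ⟨_, hV.code_mem A T σ, ?_, ?_⟩
  · have := code_maps A T σ p
    rwa [hp', hi] at this
  · have := code_maps A T σ q
    rwa [hq', hj] at this

end IsCodeGroup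

end Vale.Agent.P193.Twisted
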